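import Vale.Agent.P198.H.Defs

/-!
# P198, block Ha: word length and Gromov products of a finitely generated group
-/

namespace Vale.Agent.P198.H

open Set

variable {G : Type} [Group G] {S : Finset G}

theorem wlen_le {l : List G} (hl : ∀ x ∈ l, x ∈ S ∨ x⁻¹ ∈ S) : wlen S l.prod ≤ l.length :=
  Nat.sInf_le ⟨l, rfl, hl, rfl⟩

theorem exists_word (hS : Subgroup.closure (S : Set G) = ⊤) (g : G) :
    ∃ l : List G, l.length = wlen S g ∧ (∀ x ∈ l, x ∈ S ∨ x⁻¹ ∈ S) ∧ l.prod = g := by
  have hg : g ∈ (Subgroup.closure (S : Set G)).toSubmonoid := by rw [hS]; trivial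
  rw [Subgroup.closure_toSubmonoid] at hg
  obtain ⟨l, hl, hprod⟩ := Submonoid.exists_list_of_mem_closure hg
  refine Nat.sInf_mem (s := {n | ∃ l : List G, l.length = n ∧ (∀ x ∈ l, x ∈ S ∨ x⁻¹ ∈ S) ∧
    l.prod = g}) ⟨l.length, l, rfl, fun x hx => ?_, hprod⟩
  rcases hl x hx with h | h
  · exact Or.inl (Finset.mem_coe.1 h)
  · exact Or.inr (Finset.mem_coe.1 h)

theorem wlen_one : wlen S (1 : G) = 0 := by
  have := wlen_le (S := S) (l := ([] : List G)) (by simp)
  simpa using this

theorem wlen_eq_zero (hS : Subgroup.closure (S : Set G) = ⊤) {g : G} : wlen S g = 0 ↔ g = 1 := by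
  constructor
  · intro h
    obtain ⟨l, hlen, -, hprod⟩ := exists_word hS g
    rw [h, List.length_eq_zero_iff] at hlen
    rw [← hprod, hlen, List.prod_nil]
  · rintro rfl
    exact wlen_one

private theorem word_set_inv (g : G) (n : ℕ)
    (h : ∃ l : List G, l.length = n ∧ (∀ x ∈ l, x ∈ S ∨ x⁻¹ ∈ S) ∧ l.prod = g) :
    ∃ l : List G, l.length = n ∧ (∀ x ∈ l, x ∈ S ∨ x⁻¹ ∈ S) ∧ l.prod = g⁻¹ := by
  obtain ⟨l, hlen, hl, hprod⟩ := h
  refine ⟨(l.map fun x => x⁻¹).reverse, by simpa using hlen, ?_, ?_⟩
  · intro x hx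
    rw [List.mem_reverse, List.mem_map] at hx
    obtain ⟨y, hy, rfl⟩ := hx
    rw [inv_inv]
    exact (hl y hy).symm
  · rw [← hprod, List.prod_inv_reverse]

theorem wlen_inv (g : G) : wlen S g⁻¹ = wlen S g := by
  unfold wlen
  congr 1
  ext n
  constructor
  · intro h
    have := word_set_inv (S := S) _ _ h
    rwa [inv_inv] at this
  · exact word_set_inv (S := S) _ _

theorem wlen_mul_le (hS : Subgroup.closure (S : Set G) = ⊤) (g h : G) :
    wlen S (g * h) ≤ wlen S g + wlen S h := by
  obtain ⟨l, hlen, hl, hprod⟩ := exists_word hS g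
  obtain ⟨l', hlen', hl', hprod'⟩ := exists_word hS h
  rw [← hlen, ← hlen', ← hprod, ← hprod', ← List.prod_append, ← List.length_append]
  refine wlen_le ?_
  intro x hx
  rcases List.mem_append.1 hx with hx | hx
  · exact hl x hx
  · exact hl' x hx

/-- every element splits along a geodesic word -/
theorem exists_split (hS : Subgroup.closure (S : Set G) = ⊤) (g : G) (n : ℕ) (hn : n ≤ wlen S g) :
    ∃ a b : G, g = a * b ∧ wlen S a = n ∧ wlen S b = wlen S g - n := by
  obtain ⟨l, hlen, hl, hprod⟩ := exists_word hS g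
  have h1 : wlen S (l.take n).prod ≤ n := by
    refine (wlen_le fun x hx => hl x (List.mem_of_mem_take hx)).trans ?_
    rw [List.length_take]
    exact min_le_left _ _
  have h2 : wlen S (l.drop n).prod ≤ wlen S g - n := by
    refine (wlen_le fun x hx => hl x (List.mem_of_mem_drop hx)).trans ?_
    rw [List.length_drop, hlen]
  have h3 : (l.take n).prod * (l.drop n).prod = g := by
    rw [← List.prod_append, List.take_append_drop, hprod]
  have h4 := wlen_mul_le hS (l.take n).prod (l.drop n).prod
  rw [h3] at h4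
  exact ⟨_, _, h3.symm, by omega, by omega⟩

theorem finite_ball (hS : Subgroup.closure (S : Set G) = ⊤) (n : ℕ) :
    {g : G | wlen S g ≤ n}.Finite := by
  have hT : (((S : Set G) ∪ (S : Set G)⁻¹) : Set G).Finite :=
    S.finite_toSet.union S.finite_toSet.inv
  have h1 : {l : List G | l.length ≤ n ∧ ∀ x ∈ l, x ∈ (S : Set G) ∪ (S : Set G)⁻¹}.Finite := by
    have : Finite (((S : Set G) ∪ (S : Set G)⁻¹ : Set G) : Type _) := hT
    have h2 := (List.finite_length_le
      (α := (((S : Set G) ∪ (S : Set G)⁻¹ : Set G) : Type _)) n).image (List.map Subtype.val)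
    refine h2.subset ?_
    rintro l ⟨hl, hl'⟩
    refine ⟨l.attach.map fun x => ⟨x.1, hl' _ x.2⟩, ?_, ?_⟩
    · simpa using hl
    · simp [List.map_map, Function.comp_def]
  refine (h1.image List.prod).subset ?_
  intro g hg
  obtain ⟨l, hlen, hl, hprod⟩ := exists_word hS g
  refine ⟨l, ⟨hlen.trans_le hg, fun x hx => ?_⟩, hprod⟩
  rcases hl x hx with h | h
  · exact Or.inl (Finset.mem_coe.2 h)
  · exact Or.inr (Set.mem_inv.2 (Finset.mem_coe.2 h))

theorem wdist_one_left (g : G) : wdist S 1 g = wlen S g := by simp [wdist]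

theorem wdist_self (g : G) : wdist S g g = 0 := by
  unfold wdist
  rw [inv_mul_cancel, wlen_one]

theorem wdist_comm (g h : G) : wdist S g h = wdist S h g := by
  unfold wdist
  rw [← wlen_inv (h⁻¹ * g)]
  congr 1
  group

theorem wdist_triangle (hS : Subgroup.closure (S : Set G) = ⊤) (a b c : G) :
    wdist S a c ≤ wdist S a b + wdist S b c := by
  unfold wdist
  have := wlen_mul_le hS (a⁻¹ * b) (b⁻¹ * c)
  simpa [mul_assoc] using this

theorem wdist_mul_left (g a b : G) : wdist S (g * a) (g * b) = wdist S a b := by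
  unfold wdist
  congr 1
  group

theorem wdist_eq_zero (hS : Subgroup.closure (S : Set G) = ⊤) {a b : G} :
    wdist S a b = 0 ↔ a = b := by
  unfold wdist
  rw [wlen_eq_zero hS, inv_mul_eq_one]

/-- any two points are joined by a discrete geodesic of the word metric -/
theorem exists_geod (hS : Subgroup.closure (S : Set G) = ⊤) (x y : G) :
    ∃ a, IsGeod S x y a (wdist S x y) := by
  obtain ⟨l, hlen, hl, hprod⟩ := exists_word hS (x⁻¹ * y)
  refine ⟨fun i => x * (l.take i).prod, by simp, ?_, ?_⟩
  · show x * (l.take (wlen S (x⁻¹ * y))).prod = y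
    rw [← hlen, List.take_length, hprod]
    group
  · intro i j hij hj
    have hj' : j ≤ l.length := hj.trans_eq hlen.symm
    have hup : ∀ a b, a ≤ b → b ≤ l.length →
        wdist S (x * (l.take a).prod) (x * (l.take b).prod) ≤ b - a := by
      intro a b hab hb
      have h1 : (x * (l.take a).prod)⁻¹ * (x * (l.take b).prod) = ((l.take b).drop a).prod := by
        have h2 : l.take b = l.take a ++ (l.take b).drop a := by
          conv_lhs => rw [← List.take_append_drop a (l.take b)]
          rw [List.take_take, min_eq_left hab]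
        conv_lhs => rw [h2, List.prod_append]
        group
      unfold wdist
      rw [h1]
      refine (wlen_le fun z hz => hl z (List.mem_of_mem_take (List.mem_of_mem_drop hz))).trans ?_
      rw [List.length_drop, List.length_take, min_eq_left hb]
    have h1 := hup i j hij hj'
    have h2 := hup 0 i (Nat.zero_le _) (hij.trans hj')
    have h3 := hup j l.length hj' le_rfl
    have h4 : wdist S (x * (l.take 0).prod) (x * (l.take l.length).prod) = l.length := by
      rw [List.take_zero, List.prod_nil, List.take_length, hprod, hlen]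
      unfold wdist
      congr 1
      group
    have h5 := wdist_triangle hS (x * (l.take 0).prod) (x * (l.take i).prod)
      (x * (l.take l.length).prod)
    have h6 := wdist_triangle hS (x * (l.take i).prod) (x * (l.take j).prod)
      (x * (l.take l.length).prod)
    show wdist S (x * (l.take i).prod) (x * (l.take j).prod) = j - i
    omega

theorem IsGeod.rev {x y : G} {a : ℕ → G} {n : ℕ} (h : IsGeod S x y a n) :
    IsGeod S y x (fun i => a (n - i)) n := by
  refine ⟨by simpa using h.stop, by simpa using h.start, ?_⟩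
  intro i j hij hj
  show wdist S (a (n - i)) (a (n - j)) = j - i
  rw [wdist_comm, h.geod (n - j) (n - i) (by omega) (by omega)]
  omega

theorem IsGeod.length_eq {x y : G} {a : ℕ → G} {n : ℕ} (h : IsGeod S x y a n) :
    wdist S x y = n := by
  have := h.geod 0 n (Nat.zero_le _) le_rfl
  rwa [h.start, h.stop, Nat.sub_zero] at this

/-! ### Gromov products -/

theorem gp_comm (g h : G) : gp S g h = gp S h g := by
  unfold gp
  have : wlen S (g⁻¹ * h) = wlen S (h⁻¹ * g) := wdist_comm g h
  rw [this]
  ring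

theorem wlen_le_add_wdist (hS : Subgroup.closure (S : Set G) = ⊤) (g h : G) :
    wlen S h ≤ wlen S g + wdist S g h := by
  have := wdist_triangle hS 1 g h
  rwa [wdist_one_left, wdist_one_left] at this

theorem gp_nonneg (hS : Subgroup.closure (S : Set G) = ⊤) (g h : G) : 0 ≤ gp S g h := by
  have h1 := wdist_triangle hS g 1 h
  rw [wdist_one_left, wdist_comm g 1, wdist_one_left] at h1
  have h2 : (wdist S g h : ℝ) ≤ wlen S g + wlen S h := by exact_mod_cast h1
  unfold wdist at h2
  unfold gp
  linarith

theorem gp_le_left (hS : Subgroup.closure (S : Set G) = ⊤) (g h : G) : gp S g h ≤ wlen S g := by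
  have h1 := wlen_le_add_wdist hS g h
  have h2 : (wlen S h : ℝ) ≤ wlen S g + wdist S g h := by exact_mod_cast h1
  unfold wdist at h2
  unfold gp
  linarith

theorem gp_le_right (hS : Subgroup.closure (S : Set G) = ⊤) (g h : G) : gp S g h ≤ wlen S h := by
  rw [gp_comm]
  exact gp_le_left hS h g

theorem gp_self (g : G) : gp S g g = wlen S g := by
  unfold gp
  rw [inv_mul_cancel, wlen_one]
  push_cast
  ring

theorem gp_one_left (g : G) : gp S 1 g = 0 := by
  unfold gp
  rw [wlen_one, inv_one, one_mul]
  push_cast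
  ring

theorem gp_one_right (g : G) : gp S g 1 = 0 := by
  rw [gp_comm, gp_one_left]

/-- exact cocycle identity -/
theorem gp_mul (g a h : G) :
    gp S (g * a) (g * h) = gp S a h - gp S a g⁻¹ - gp S h g⁻¹ + wlen S g := by
  have e1 : (g * a)⁻¹ * (g * h) = a⁻¹ * h := by group
  have e2 : wlen S (a⁻¹ * g⁻¹) = wlen S (g * a) := by
    rw [← wlen_inv (g * a)]
    congr 1
    group
  have e3 : wlen S (h⁻¹ * g⁻¹) = wlen S (g * h) := by
    rw [← wlen_inv (g * h)]
    congr 1
    group
  unfold gp
  rw [e1, e2, e3, wlen_inv g]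
  ring

theorem gp_lip (hS : Subgroup.closure (S : Set G) = ⊤) (a b g : G) :
    |gp S a g - gp S b g| ≤ wdist S a b := by
  have h1 : (wlen S b : ℝ) ≤ wlen S a + wdist S a b := by
    exact_mod_cast wlen_le_add_wdist hS a b
  have h2 : (wlen S a : ℝ) ≤ wlen S b + wdist S a b := by
    rw [wdist_comm]
    exact_mod_cast wlen_le_add_wdist hS b a
  have h3 : (wdist S a g : ℝ) ≤ wdist S a b + wdist S b g := by
    exact_mod_cast wdist_triangle hS a b g
  have h4 : (wdist S b g : ℝ) ≤ wdist S a b + wdist S a g := by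
    rw [wdist_comm a b]
    exact_mod_cast wdist_triangle hS b a g
  unfold wdist at h3 h4
  unfold wdist at h1 h2 ⊢
  unfold gp
  rw [abs_le]
  constructor <;> linarith

/-- `2 (g|h)` is an integer -/
theorem gp_half (g h : G) : ∃ n : ℤ, gp S g h = n / 2 :=
  ⟨(wlen S g : ℤ) + wlen S h - wlen S (g⁻¹ * h), by unfold gp; push_cast; ring⟩

end Vale.Agent.P198.H
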