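import Vale.Agent.P198.H.Bd
import Vale.Agent.P198.H.Word

/-!
# P198, block Hd: the boundary by geodesic rays is the boundary of the completion

For a word length `wlen S` with the four-point inequality (`H : HypLen G`, `H.len = wlen S`) the
quotient `Bdry S` of the space of geodesic rays from `1` is homeomorphic to `H.Bd`; a ray `r` is
sent to the limit of `H.ι (r n)`, and `dist (H.ι (r n)) (limit) ≤ θ ^ n`.
-/

namespace Vale.Agent.P198.H

open Filter Topology Set P198H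

variable {G : Type} [Group G] {S : Finset G}

theorem Ray.wlen_eq (r : Ray S) (n : ℕ) : wlen S (r.1 n) = n := by
  have h := r.2.2 0 n (Nat.zero_le n)
  rw [r.2.1, wdist_one_left] at h
  simpa using h

section Lim

variable (H : HypLen G) (hH : H.len = wlen S)

include hH

theorem g2_ray (r : Ray S) {i j : ℕ} (hij : i ≤ j) : H.g2 (r.1 i) (r.1 j) = i := by
  have h := r.2.2 i j hij
  unfold wdist at h
  rw [H.g2_def, hH, r.wlen_eq, r.wlen_eq, h, Nat.cast_sub hij]
  ring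

omit hH in
theorem dist_ι_le_rpow (a b : G) : dist (H.ι a) (H.ι b) ≤ H.θ ^ (H.g2 a b) := by
  rw [H.dist_ι]
  exact (H.dist_le_q a b).trans (H.q_le a b)

omit hH in
theorem rpow_le_dist_ι {a b : G} (h : a ≠ b) : H.θ ^ (H.g2 a b) ≤ 2 * dist (H.ι a) (H.ι b) := by
  rw [H.dist_ι, ← H.q_of_ne h]
  exact H.q_le_dist a b

omit hH in
theorem tendsto_θ_pow : Tendsto (fun n : ℕ => H.θ ^ n) atTop (𝓝 0) :=
  tendsto_pow_atTop_nhds_zero_of_lt_one H.θ_pos.le H.θ_lt_one

theorem dist_ray (r : Ray S) {i j : ℕ} (hij : i ≤ j) :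
    dist (H.ι (r.1 i)) (H.ι (r.1 j)) ≤ H.θ ^ i := by
  refine (dist_ι_le_rpow H _ _).trans ?_
  rw [g2_ray H hH r hij, Real.rpow_natCast]

theorem cauchySeq_ray (r : Ray S) : CauchySeq (fun n => H.ι (r.1 n)) := by
  refine cauchySeq_of_le_tendsto_0 (fun n => H.θ ^ n) ?_ (tendsto_θ_pow H)
  intro n m N hn hm
  rcases le_total n m with h | h
  · exact (dist_ray H hH r h).trans (pow_le_pow_of_le_one H.θ_pos.le H.θ_le_one hn)
  · rw [dist_comm]
    exact (dist_ray H hH r h).trans (pow_le_pow_of_le_one H.θ_pos.le H.θ_le_one hm)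

theorem exists_lim (r : Ray S) : ∃ x : H.Cp, Tendsto (fun n => H.ι (r.1 n)) atTop (𝓝 x) :=
  cauchySeq_tendsto_of_complete (cauchySeq_ray H hH r)

/-- the end point of a ray in the compactification -/
noncomputable def rayLim (r : Ray S) : H.Cp := (exists_lim H hH r).choose

theorem tendsto_rayLim (r : Ray S) : Tendsto (fun n => H.ι (r.1 n)) atTop (𝓝 (rayLim H hH r)) :=
  (exists_lim H hH r).choose_spec

theorem dist_rayLim (r : Ray S) (n : ℕ) : dist (H.ι (r.1 n)) (rayLim H hH r) ≤ H.θ ^ n := by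
  have h1 : Tendsto (fun m => dist (H.ι (r.1 n)) (H.ι (r.1 m))) atTop
      (𝓝 (dist (H.ι (r.1 n)) (rayLim H hH r))) :=
    tendsto_const_nhds.dist (tendsto_rayLim H hH r)
  refine le_of_tendsto h1 ?_
  filter_upwards [eventually_ge_atTop n] with m hm
  exact dist_ray H hH r hm

theorem rayLim_notMem (r : Ray S) : rayLim H hH r ∉ range H.ι := by
  rintro ⟨g, hg⟩
  have key : ∀ n : ℕ, H.len g < n → H.θ ^ (H.len g) ≤ 2 * H.θ ^ n := by
    intro n hn
    have hne : r.1 n ≠ g := by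
      intro h
      rw [← h, hH, r.wlen_eq] at hn
      exact lt_irrefl _ hn
    have h1 := rpow_le_dist_ι H hne
    have h2 := dist_rayLim H hH r n
    rw [← hg] at h2
    have h3 : H.θ ^ (H.len g : ℝ) ≤ H.θ ^ H.g2 (r.1 n) g :=
      Real.rpow_le_rpow_of_exponent_ge H.θ_pos H.θ_le_one (H.g2_le_right _ _)
    rw [Real.rpow_natCast] at h3
    linarith
  have h4 : Tendsto (fun n : ℕ => 2 * H.θ ^ n) atTop (𝓝 (2 * 0)) :=
    (tendsto_θ_pow H).const_mul 2
  rw [mul_zero] at h4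
  have h5 : H.θ ^ (H.len g) ≤ 0 := by
    refine ge_of_tendsto h4 ?_
    filter_upwards [eventually_gt_atTop (H.len g)] with n hn
    exact key n hn
  exact absurd (pow_pos H.θ_pos (H.len g)) (not_lt.mpr h5)

/-- the end point of a ray in the boundary -/
noncomputable def rayEnd (r : Ray S) : H.Bd := ⟨rayLim H hH r, rayLim_notMem H hH r⟩

theorem tendsto_rayEnd (r : Ray S) : Tendsto (fun n => H.ι (r.1 n)) atTop (𝓝 (rayEnd H hH r).1) :=
  tendsto_rayLim H hH r

theorem dist_rayEnd (r : Ray S) (n : ℕ) : dist (H.ι (r.1 n)) (rayEnd H hH r).1 ≤ H.θ ^ n :=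
  dist_rayLim H hH r n

theorem rayEnd_eq_of_bdd {r r' : Ray S} (h : ∃ C : ℕ, ∀ n, wdist S (r.1 n) (r'.1 n) ≤ C) :
    rayEnd H hH r = rayEnd H hH r' := by
  obtain ⟨C, hC⟩ := h
  have h1 : ∀ n, dist (rayLim H hH r) (rayLim H hH r') ≤
      (2 + H.θ ^ (-(C : ℝ) / 2)) * H.θ ^ n := by
    intro n
    have h2 : dist (H.ι (r.1 n)) (H.ι (r'.1 n)) ≤ H.θ ^ (-(C : ℝ) / 2) * H.θ ^ n := by
      refine (dist_ι_le_rpow H _ _).trans ?_
      rw [← Real.rpow_natCast H.θ n, ← Real.rpow_add H.θ_pos]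
      apply Real.rpow_le_rpow_of_exponent_ge H.θ_pos H.θ_le_one
      rw [H.g2_def, hH, r.wlen_eq, r'.wlen_eq]
      have : ((wlen S ((r.1 n)⁻¹ * r'.1 n) : ℕ) : ℝ) ≤ C := by exact_mod_cast hC n
      linarith
    have h3 := dist_rayLim H hH r n
    have h4 := dist_rayLim H hH r' n
    have h5 := dist_triangle4 (rayLim H hH r) (H.ι (r.1 n)) (H.ι (r'.1 n)) (rayLim H hH r')
    rw [dist_comm (rayLim H hH r) (H.ι (r.1 n))] at h5
    linarith
  have h6 : Tendsto (fun n : ℕ => (2 + H.θ ^ (-(C : ℝ) / 2)) * H.θ ^ n) atTop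
      (𝓝 ((2 + H.θ ^ (-(C : ℝ) / 2)) * 0)) := (tendsto_θ_pow H).const_mul _
  rw [mul_zero] at h6
  have h7 : dist (rayLim H hH r) (rayLim H hH r') ≤ 0 := ge_of_tendsto' h6 h1
  exact Subtype.ext (dist_le_zero.mp h7)

theorem bdd_of_rayEnd_eq {r r' : Ray S} (h : rayEnd H hH r = rayEnd H hH r') :
    ∃ C : ℕ, ∀ n, wdist S (r.1 n) (r'.1 n) ≤ C := by
  obtain ⟨m, hm⟩ : ∃ m : ℕ, H.θ ^ m < 1 / 4 := exists_pow_lt_of_lt_one (by norm_num) H.θ_lt_one
  refine ⟨2 * m, fun n => ?_⟩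
  by_cases hne : r.1 n = r'.1 n
  · rw [hne, wdist_self]; exact Nat.zero_le _
  have h1 := rpow_le_dist_ι H hne
  have h2 : dist (H.ι (r.1 n)) (H.ι (r'.1 n)) ≤ 2 * H.θ ^ n := by
    have h3 := dist_rayEnd H hH r n
    have h4 := dist_rayEnd H hH r' n
    have h5 := dist_triangle (H.ι (r.1 n)) (rayEnd H hH r).1 (H.ι (r'.1 n))
    rw [h] at h5 h3
    rw [dist_comm (rayEnd H hH r').1] at h5
    linarith
  have h3 : H.θ ^ H.g2 (r.1 n) (r'.1 n) ≤ H.θ ^ ((n : ℝ) - m) := by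
    rw [Real.rpow_sub H.θ_pos, Real.rpow_natCast, Real.rpow_natCast,
      le_div_iff₀ (pow_pos H.θ_pos m)]
    have h4 : H.θ ^ H.g2 (r.1 n) (r'.1 n) ≤ 4 * H.θ ^ n := by linarith
    have h5 : 0 < H.θ ^ n := pow_pos H.θ_pos n
    calc H.θ ^ H.g2 (r.1 n) (r'.1 n) * H.θ ^ m ≤ (4 * H.θ ^ n) * (1 / 4) := by
          apply mul_le_mul h4 hm.le (pow_pos H.θ_pos m).le (by positivity)
      _ = H.θ ^ n := by ring
  have h4 : (n : ℝ) - m ≤ H.g2 (r.1 n) (r'.1 n) := by
    by_contra hlt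
    push Not at hlt
    have := Real.rpow_lt_rpow_of_exponent_gt H.θ_pos H.θ_lt_one hlt
    linarith
  rw [H.g2_def, hH, r.wlen_eq, r'.wlen_eq] at h4
  have h5 : ((wlen S ((r.1 n)⁻¹ * r'.1 n) : ℕ) : ℝ) ≤ ((2 * m : ℕ) : ℝ) := by
    push_cast
    linarith
  exact_mod_cast h5

/-- every boundary point is the end point of a ray -/
theorem exists_rayEnd (hS : Subgroup.closure (S : Set G) = ⊤) (x : H.Bd) :
    ∃ r : Ray S, rayEnd H hH r = x := by
  classical
  have h1 : ∀ k : ℕ, ∃ g : G, dist (H.ι g) x.1 < 1 / ((k : ℝ) + 1) := by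
    intro k
    obtain ⟨g, hg⟩ := H.denseRange_ι.exists_dist_lt x.1 (ε := 1 / ((k : ℝ) + 1)) (by positivity)
    exact ⟨g, by rw [dist_comm]; exact hg⟩
  choose g hg using h1
  have hgx : Tendsto (fun k => H.ι (g k)) atTop (𝓝 x.1) := by
    rw [tendsto_iff_dist_tendsto_zero]
    exact squeeze_zero (fun _ => dist_nonneg) (fun k => (hg k).le)
      tendsto_one_div_add_atTop_nhds_zero_nat
  have hlen : ∀ n : ℕ, ∀ᶠ k in atTop, n < wlen S (g k) := by
    intro n
    have hfin : (H.ι '' {g | wlen S g ≤ n}).Finite := (finite_ball hS n).image _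
    have hopen : IsOpen (H.ι '' {g | wlen S g ≤ n})ᶜ := hfin.isClosed.isOpen_compl
    have hmem : x.1 ∈ (H.ι '' {g | wlen S g ≤ n})ᶜ := by
      rintro ⟨a, -, ha⟩
      exact x.2 ⟨a, ha⟩
    filter_upwards [hgx.eventually (hopen.mem_nhds hmem)] with k hk
    by_contra hlt
    exact hk ⟨g k, not_lt.mp hlt, rfl⟩
  have hp : ∀ k, ∃ p : ℕ → G, IsGeod S 1 (g k) p (wlen S (g k)) := by
    intro k
    have := exists_geod hS 1 (g k)
    rwa [wdist_one_left] at this
  choose p hp using hp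
  have hplen : ∀ k i, i ≤ wlen S (g k) → wlen S (p k i) = i := by
    intro k i hi
    have h := (hp k).geod 0 i (Nat.zero_le i) hi
    rw [(hp k).start, wdist_one_left] at h
    simpa using h
  have hU : ((hyperfilter ℕ : Ultrafilter ℕ) : Filter ℕ) ≤ atTop := Nat.hyperfilter_le_atTop
  have hr : ∀ n : ℕ, ∃ a : G, ∀ᶠ k in ((hyperfilter ℕ : Ultrafilter ℕ) : Filter ℕ), p k n = a := by
    intro n
    have h2 : ∀ᶠ k in ((hyperfilter ℕ : Ultrafilter ℕ) : Filter ℕ),
        ∃ a ∈ {g | wlen S g ≤ n}, p k n = a := by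
      filter_upwards [hU (hlen n)] with k hk
      exact ⟨p k n, (hplen k n (le_of_lt hk)).le, rfl⟩
    obtain ⟨a, -, ha⟩ := (Ultrafilter.eventually_exists_mem_iff (finite_ball hS n)).mp h2
    exact ⟨a, ha⟩
  choose r hr using hr
  have hray : r 0 = 1 ∧ ∀ i j, i ≤ j → wdist S (r i) (r j) = j - i := by
    constructor
    · obtain ⟨k, hk⟩ := (hr 0).exists
      rw [← hk, (hp k).start]
    · intro i j hij
      obtain ⟨k, hk⟩ := ((hr i).and ((hr j).and (hU (hlen j)))).exists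
      obtain ⟨h1, h2, h3⟩ := hk
      rw [← h1, ← h2]
      exact (hp k).geod i j hij (le_of_lt h3)
  refine ⟨⟨r, hray⟩, ?_⟩
  have hdist : ∀ n, dist (H.ι (r n)) x.1 ≤ H.θ ^ n := by
    intro n
    have h1 : Tendsto (fun k => dist (H.ι (r n)) (H.ι (g k)))
        ((hyperfilter ℕ : Ultrafilter ℕ) : Filter ℕ) (𝓝 (dist (H.ι (r n)) x.1)) :=
      tendsto_const_nhds.dist (hgx.mono_left hU)
    refine le_of_tendsto h1 ?_
    filter_upwards [hr n, hU (hlen n)] with k hk hk'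
    refine (dist_ι_le_rpow H _ _).trans ?_
    rw [← Real.rpow_natCast]
    apply Real.rpow_le_rpow_of_exponent_ge H.θ_pos H.θ_le_one
    rw [← hk, H.g2_def, hH, hplen k n (le_of_lt hk')]
    have h3 := (hp k).geod n (wlen S (g k)) (le_of_lt hk') le_rfl
    rw [(hp k).stop] at h3
    unfold wdist at h3
    rw [h3, Nat.cast_sub (le_of_lt hk')]
    linarith
  have h1 : Tendsto (fun n => H.ι (r n)) atTop (𝓝 x.1) := by
    rw [tendsto_iff_dist_tendsto_zero]
    exact squeeze_zero (fun _ => dist_nonneg) hdist (tendsto_θ_pow H)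
  exact Subtype.ext (tendsto_nhds_unique (tendsto_rayLim H hH ⟨r, hray⟩) h1)

end Lim

/-! ## The space of rays -/

theorem le_nhds_ray {f : Filter (Ray S)} {r : Ray S} (h : ∀ n, ∀ᶠ r' in f, r'.1 n = r.1 n) :
    f ≤ 𝓝 r := by
  rw [show 𝓝 r = ⨅ n : ℕ, @nhds (Ray S) (TopologicalSpace.induced (fun r : Ray S => r.1 n) ⊥) r
    from nhds_iInf]
  refine le_iInf fun n => ?_
  rw [@nhds_induced G (Ray S) ⊥ (fun r : Ray S => r.1 n) r]
  have h0 : @nhds G ⊥ (r.1 n) = pure (r.1 n) := by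
    rw [@nhds_discrete G ⊥ (@DiscreteTopology.mk G ⊥ rfl)]
  rw [h0, ← tendsto_iff_comap, tendsto_pure]
  exact h n

theorem eventually_eq_ray (r : Ray S) (n : ℕ) : ∀ᶠ r' in 𝓝 r, r'.1 n = r.1 n := by
  have h1 : 𝓝 r ≤ comap (fun r : Ray S => r.1 n) (pure (r.1 n)) := by
    rw [show 𝓝 r = ⨅ n : ℕ, @nhds (Ray S) (TopologicalSpace.induced (fun r : Ray S => r.1 n) ⊥) r
      from nhds_iInf]
    refine (iInf_le _ n).trans ?_
    rw [@nhds_induced G (Ray S) ⊥ (fun r : Ray S => r.1 n) r]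
    have h0 : @nhds G ⊥ (r.1 n) = pure (r.1 n) := by
      rw [@nhds_discrete G ⊥ (@DiscreteTopology.mk G ⊥ rfl)]
    rw [h0]
  rw [← tendsto_iff_comap, tendsto_pure] at h1
  exact h1

theorem compactSpace_ray (hS : Subgroup.closure (S : Set G) = ⊤) : CompactSpace (Ray S) := by
  refine ⟨isCompact_iff_ultrafilter_le_nhds.mpr ?_⟩
  intro f _
  have h1 : ∀ n : ℕ, ∃ a : G, ∀ᶠ r in (f : Filter (Ray S)), r.1 n = a := by
    intro n
    have h2 : ∀ᶠ r in (f : Filter (Ray S)), ∃ a ∈ {g | wlen S g ≤ n}, r.1 n = a :=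
      Eventually.of_forall fun r => ⟨r.1 n, (r.wlen_eq n).le, rfl⟩
    obtain ⟨a, -, ha⟩ := (Ultrafilter.eventually_exists_mem_iff (finite_ball hS n)).mp h2
    exact ⟨a, ha⟩
  choose a ha using h1
  have hray : a 0 = 1 ∧ ∀ i j, i ≤ j → wdist S (a i) (a j) = j - i := by
    constructor
    · obtain ⟨r, hr⟩ := (ha 0).exists
      rw [← hr, r.2.1]
    · intro i j hij
      obtain ⟨r, h1, h2⟩ := ((ha i).and (ha j)).exists
      rw [← h1, ← h2]
      exact r.2.2 i j hij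
  exact ⟨⟨a, hray⟩, mem_univ _, le_nhds_ray ha⟩

theorem continuous_rayEnd (H : HypLen G) (hH : H.len = wlen S) :
    Continuous (rayEnd H hH : Ray S → H.Bd) := by
  rw [continuous_iff_continuousAt]
  intro r
  rw [ContinuousAt, tendsto_iff_dist_tendsto_zero, Metric.tendsto_nhds]
  intro ε hε
  obtain ⟨n, hn⟩ : ∃ n : ℕ, H.θ ^ n < ε / 2 := exists_pow_lt_of_lt_one (by positivity) H.θ_lt_one
  filter_upwards [eventually_eq_ray r n] with r' hr'
  have h1 := dist_rayEnd H hH r n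
  have h2 := dist_rayEnd H hH r' n
  rw [hr'] at h2
  have h3 := dist_triangle (rayEnd H hH r').1 (H.ι (r.1 n)) (rayEnd H hH r).1
  rw [dist_comm (rayEnd H hH r').1 (H.ι (r.1 n))] at h3
  rw [Real.dist_0_eq_abs, abs_of_nonneg dist_nonneg, H.dist_val]
  linarith

/-- **Block Hd.**  The boundary by geodesic rays is the boundary of the completion. -/
theorem exists_bdryHomeo (hS : Subgroup.closure (S : Set G) = ⊤) (H : HypLen G)
    (hH : H.len = wlen S) :
    ∃ e : Bdry S ≃ₜ H.Bd, ∀ r : Ray S, e (Quot.mk _ r) = rayEnd H hH r := by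
  have hcomp : CompactSpace (Ray S) := compactSpace_ray hS
  have hcompB : CompactSpace (Bdry S) := inferInstanceAs (CompactSpace (Quot _))
  have hcompat : ∀ r r' : Ray S, (∃ C : ℕ, ∀ n, wdist S (r.1 n) (r'.1 n) ≤ C) →
      rayEnd H hH r = rayEnd H hH r' := fun r r' h => rayEnd_eq_of_bdd H hH h
  let Φ : Bdry S → H.Bd := Quot.lift (rayEnd H hH) hcompat
  have hΦ : Continuous Φ := continuous_quot_lift hcompat (continuous_rayEnd H hH)
  have hinj : Function.Injective Φ := by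
    intro a b
    induction a using Quot.inductionOn with | _ r => ?_
    induction b using Quot.inductionOn with | _ r' => ?_
    intro h
    exact Quot.sound (bdd_of_rayEnd_eq H hH h)
  have hsurj : Function.Surjective Φ := by
    intro x
    obtain ⟨r, hr⟩ := exists_rayEnd H hH hS x
    exact ⟨Quot.mk _ r, hr⟩
  exact ⟨hΦ.homeoOfEquivCompactToT2 (f := Equiv.ofBijective Φ ⟨hinj, hsurj⟩), fun r => rfl⟩

/-- the homeomorphism between the two boundaries -/
noncomputable def bdryHomeo (hS : Subgroup.closure (S : Set G) = ⊤) (H : HypLen G)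
    (hH : H.len = wlen S) : Bdry S ≃ₜ H.Bd := (exists_bdryHomeo hS H hH).choose

theorem bdryHomeo_mk (hS : Subgroup.closure (S : Set G) = ⊤) (H : HypLen G)
    (hH : H.len = wlen S) (r : Ray S) : bdryHomeo hS H hH (Quot.mk _ r) = rayEnd H hH r :=
  (exists_bdryHomeo hS H hH).choose_spec r

/-- the ray `r` converges to the boundary point it represents -/
theorem tendsto_bdryHomeo (hS : Subgroup.closure (S : Set G) = ⊤) (H : HypLen G)
    (hH : H.len = wlen S) (r : Ray S) :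
    Tendsto (fun n => H.ι (r.1 n)) atTop (𝓝 (bdryHomeo hS H hH (Quot.mk _ r)).1) := by
  rw [bdryHomeo_mk]; exact tendsto_rayEnd H hH r

/-- quantitative version -/
theorem dist_bdryHomeo (hS : Subgroup.closure (S : Set G) = ⊤) (H : HypLen G)
    (hH : H.len = wlen S) (r : Ray S) (n : ℕ) :
    dist (H.ι (r.1 n)) (bdryHomeo hS H hH (Quot.mk _ r)).1 ≤ H.θ ^ n := by
  rw [bdryHomeo_mk]; exact dist_rayEnd H hH r n

end Vale.Agent.P198.H
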