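import Vale.Agent.P198.H.HypLen
import Vale.Agent.P198.Q.Defs

/-!
# P198, block H: the boundary of a hyperbolic length function and its `QM` structure

The compactification `Cp H` is the completion of the group with its visual metric; the boundary
`Bd H` consists of the added points.  The group acts on both.
-/

namespace P198H

open Set Metric Filter Topology UniformSpace

variable {G : Type*} [Group G]

namespace HypLen

variable (H : HypLen G)

/-- compactification of the group -/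
abbrev Cp (H : HypLen G) : Type _ := UniformSpace.Completion H.X

/-- inclusion of the group in its compactification -/
noncomputable def ι (g : G) : H.Cp := ((H.toX g : H.X) : UniformSpace.Completion H.X)

theorem dist_ι (a b : G) : dist (H.ι a) (H.ι b) = dist (H.toX a) (H.toX b) :=
  Completion.dist_eq _ _

theorem ι_injective : Function.Injective H.ι := by
  intro a b h
  have h2 : dist (H.ι a) (H.ι b) = 0 := by rw [h, dist_self]
  rw [dist_ι] at h2
  have h3 : H.toX a = H.toX b := dist_eq_zero.1 h2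
  exact h3

theorem denseRange_ι : DenseRange H.ι := by
  have h : DenseRange ((↑) : H.X → H.Cp) := UniformSpace.Completion.denseRange_coe
  exact h

theorem smul_ι (g a : G) : g • H.ι a = H.ι (g * a) :=
  (UniformSpace.Completion.coe_smul g (H.toX a)).symm

theorem continuous_gsmul (g : G) : Continuous (fun z : H.Cp => g • z) :=
  continuous_const_smul g

instance : CompactSpace H.Cp := by
  refine ⟨?_⟩
  have h1 : TotallyBounded (range ((↑) : H.X → H.Cp)) := by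
    rw [← image_univ]
    exact H.totallyBounded.image (UniformSpace.Completion.uniformContinuous_coe _)
  have h2 : TotallyBounded (closure (range ((↑) : H.X → H.Cp))) := h1.closure
  rw [UniformSpace.Completion.denseRange_coe.closure_range] at h2
  exact h2.isCompact_of_isClosed isClosed_univ

/-- the boundary at infinity -/
def Bd : Type _ := {z : H.Cp // z ∉ range H.ι}

noncomputable instance : MetricSpace H.Bd := inferInstanceAs (MetricSpace {z : H.Cp // z ∉ range H.ι})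

noncomputable instance : MulAction G H.Bd where
  smul g z := ⟨g • z.1, by
    rintro ⟨h, hh⟩
    refine z.2 ⟨g⁻¹ * h, ?_⟩
    rw [← smul_ι, hh, inv_smul_smul]⟩
  one_smul z := Subtype.ext (one_smul G z.1)
  mul_smul g h z := Subtype.ext (mul_smul g h z.1)

theorem smul_val (g : G) (z : H.Bd) : (g • z).1 = g • z.1 := rfl

theorem dist_val (z w : H.Bd) : dist z w = dist z.1 w.1 := rfl

/-- group elements close to a boundary point -/
noncomputable def F (z : H.Bd) : Filter G := comap H.ι (𝓝 z.1)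

instance (z : H.Bd) : (H.F z).NeBot :=
  comap_neBot fun s hs => by
    rcases mem_closure_iff_nhds.1 (H.denseRange_ι z.1) s hs with ⟨_, ⟨ha, a, rfl⟩⟩
    exact ⟨a, ha⟩

theorem tendsto_F (z : H.Bd) : Tendsto H.ι (H.F z) (𝓝 z.1) := tendsto_comap

theorem eventually_ne (z : H.Bd) (g : G) : ∀ᶠ a in H.F z, a ≠ g := by
  have h : ({H.ι g}ᶜ : Set H.Cp) ∈ 𝓝 z.1 := by
    refine isOpen_compl_singleton.mem_nhds ?_
    intro h
    exact z.2 ⟨g, (mem_singleton_iff.1 h).symm⟩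
  filter_upwards [preimage_mem_comap h] with a ha hag
  exact ha (by rw [hag]; rfl)

theorem eventually_notMem (z : H.Bd) {S : Set G} (hS : S.Finite) : ∀ᶠ a in H.F z, a ∉ S := by
  have h : ∀ᶠ a in H.F z, ∀ g ∈ S, a ≠ g :=
    (Filter.eventually_all_finite hS).2 fun g _ => H.eventually_ne z g
  filter_upwards [h] with a ha haS
  exact ha a haS rfl

theorem lim1 {f g : H.Cp → ℝ} (hf : Continuous f) (hg : Continuous g) {S : Set G} (hS : S.Finite)
    (h : ∀ a : G, a ∉ S → f (H.ι a) ≤ g (H.ι a)) (z : H.Bd) : f z.1 ≤ g z.1 := by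
  refine le_of_tendsto_of_tendsto ((hf.tendsto z.1).comp (H.tendsto_F z))
    ((hg.tendsto z.1).comp (H.tendsto_F z)) ?_
  filter_upwards [H.eventually_notMem z hS] with a ha
  exact h a ha

theorem lim2 {f g : H.Cp → H.Cp → ℝ} (hf : Continuous fun p : H.Cp × H.Cp => f p.1 p.2)
    (hg : Continuous fun p : H.Cp × H.Cp => g p.1 p.2) {S : Set G} (hS : S.Finite)
    (h : ∀ a b : G, a ∉ S → b ∉ S → f (H.ι a) (H.ι b) ≤ g (H.ι a) (H.ι b)) (z w : H.Bd) :
    f z.1 w.1 ≤ g z.1 w.1 := by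
  have ht : Tendsto (fun p : G × G => (H.ι p.1, H.ι p.2)) (H.F z ×ˢ H.F w) (𝓝 (z.1, w.1)) := by
    rw [nhds_prod_eq]
    exact (H.tendsto_F z).prodMap (H.tendsto_F w)
  refine le_of_tendsto_of_tendsto ((hf.tendsto (z.1, w.1)).comp ht)
    ((hg.tendsto (z.1, w.1)).comp ht) ?_
  filter_upwards [(H.eventually_notMem z hS).prod_mk (H.eventually_notMem w hS)] with p hp
  exact h p.1 p.2 hp.1 hp.2

theorem dist_ι_le_one (a b : G) : dist (H.ι a) (H.ι b) ≤ 1 := by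
  rw [dist_ι]
  refine (H.dist_le_q a b).trans ((H.q_le a b).trans ?_)
  exact Real.rpow_le_one H.θ_pos.le H.θ_le_one (H.g2_nonneg a b)

theorem dist_Bd_le_one (z w : H.Bd) : dist z w ≤ 1 :=
  H.lim2 (f := fun x y => dist x y) (g := fun _ _ => 1) (by fun_prop) (by fun_prop) finite_empty
    (fun a b _ _ => H.dist_ι_le_one a b) z w

theorem s_le_dist_Bd (g : G) (z : H.Bd) : H.s g ≤ 2 * dist z.1 (H.ι g) :=
  H.lim1 (f := fun _ => H.s g) (g := fun x => 2 * dist x (H.ι g)) (by fun_prop) (by fun_prop)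
    (finite_singleton g) (fun a ha => by
      rw [dist_ι]; exact H.s_le_dist (fun h => ha (by rw [h]; rfl))) z

/-- (U) on the boundary -/
theorem Bd_upper (g : G) (x y : H.Bd) :
    dist (g • x) (g • y) * (dist x.1 (H.ι g⁻¹) * dist y.1 (H.ι g⁻¹)) ≤ 2 * (H.s g * dist x y) := by
  have hc := H.continuous_gsmul g
  refine H.lim2 (f := fun x y => dist (g • x) (g • y) * (dist x (H.ι g⁻¹) * dist y (H.ι g⁻¹)))
    (g := fun x y => 2 * (H.s g * dist x y)) ?_ ?_ finite_empty ?_ x y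
  · have h1 : Continuous fun p : H.Cp × H.Cp => g • p.1 := hc.comp continuous_fst
    have h2 : Continuous fun p : H.Cp × H.Cp => g • p.2 := hc.comp continuous_snd
    fun_prop
  · fun_prop
  · intro a b _ _
    simp only [smul_ι, dist_ι]
    exact H.dist_mul_upper g a b

/-- (L) on the boundary -/
theorem Bd_lower (g : G) (x y : H.Bd) :
    H.s g * dist x y ≤ 8 * (dist (g • x) (g • y) * (dist x.1 (H.ι g⁻¹) * dist y.1 (H.ι g⁻¹))) := by
  have hc := H.continuous_gsmul g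
  refine H.lim2 (g := fun x y => 8 * (dist (g • x) (g • y) *
    (dist x (H.ι g⁻¹) * dist y (H.ι g⁻¹))))
    (f := fun x y => H.s g * dist x y) ?_ ?_ (finite_singleton g⁻¹) ?_ x y
  · fun_prop
  · have h1 : Continuous fun p : H.Cp × H.Cp => g • p.1 := hc.comp continuous_fst
    have h2 : Continuous fun p : H.Cp × H.Cp => g • p.2 := hc.comp continuous_snd
    fun_prop
  · intro a b ha hb
    simp only [smul_ι, dist_ι]
    exact H.dist_mul_lower (fun h => ha (by rw [h]; rfl)) (fun h => hb (by rw [h]; rfl))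

/-- (U2) on the boundary -/
theorem Bd_upper' (g : G) (x : H.Bd) :
    dist (g • x.1) (H.ι g) * dist x.1 (H.ι g⁻¹) ≤ H.s g := by
  have hc := H.continuous_gsmul g
  refine H.lim1 (f := fun x => dist (g • x) (H.ι g) * dist x (H.ι g⁻¹))
    (g := fun _ => H.s g) ?_ ?_ finite_empty ?_ x
  · fun_prop
  · fun_prop
  · intro a _
    simp only [smul_ι, dist_ι]
    exact H.dist_mul_upper' g a

/-- (L2) on the boundary -/
theorem Bd_lower' (g : G) (x : H.Bd) :
    H.s g ≤ 4 * (dist (g • x.1) (H.ι g) * dist x.1 (H.ι g⁻¹)) := by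
  have hc := H.continuous_gsmul g
  refine H.lim1 (g := fun x => 4 * (dist (g • x) (H.ι g) * dist x (H.ι g⁻¹)))
    (f := fun _ => H.s g) ?_ ?_ (S := {1, g⁻¹}) (by simp) ?_ x
  · fun_prop
  · fun_prop
  · intro a ha
    simp only [smul_ι, dist_ι]
    exact H.dist_mul_lower' (fun h => ha (by rw [h]; simp)) (fun h => ha (by rw [h]; simp))

theorem isOpen_range_ι : IsOpen (range H.ι) := by
  rw [Metric.isOpen_iff]
  rintro _ ⟨g, rfl⟩
  refine ⟨H.s g / 2, by have := H.s_pos g; positivity, ?_⟩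
  intro z hz
  by_contra hzr
  have h := H.s_le_dist_Bd g ⟨z, hzr⟩
  rw [mem_ball] at hz
  simp only at h
  linarith

instance : CompactSpace H.Bd := by
  have h : IsClosed {z : H.Cp | z ∉ range H.ι} := H.isOpen_range_ι.isClosed_compl
  exact isCompact_iff_compactSpace.1 h.isCompact

theorem q_sq {a b : G} (h : a ≠ b) :
    H.q a b ^ 2 * H.θ ^ (H.len (a⁻¹ * b)) = H.s a * H.s b := by
  have hθ := H.θ_pos
  rw [H.q_of_ne h, s, s, ← Real.rpow_natCast (H.θ ^ H.g2 a b) 2, ← Real.rpow_mul hθ.le,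
    ← Real.rpow_natCast H.θ (H.len (a⁻¹ * b)), ← Real.rpow_add hθ, ← Real.rpow_add hθ]
  congr 1
  rw [g2_def]
  push_cast
  ring

theorem half_le_θ : 1 / 2 ≤ H.θ := by
  unfold θ
  have hD := H.one_le_D
  calc (1 / 2 : ℝ) = (1 / 2 : ℝ) ^ (1 : ℝ) := by rw [Real.rpow_one]
    _ ≤ _ := by
        refine Real.rpow_le_rpow_of_exponent_ge (by norm_num) (by norm_num) ?_
        rw [div_le_one (by linarith)]
        linarith

/-- group elements at a prescribed scale near a boundary point -/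
theorem exists_near (x : H.Bd) (n : ℕ) : ∃ a : G, H.len a = n ∧
    dist x.1 (H.ι a) ≤ 2 * H.θ ^ n := by
  have hp : 0 < H.θ ^ n := pow_pos H.θ_pos n
  have h1 : ∀ᶠ y in H.F x, dist (H.ι y) x.1 < H.θ ^ n :=
    (H.tendsto_F x).eventually (ball_mem_nhds _ hp)
  have h2 : ∀ᶠ y in H.F x, y ∉ {g : G | H.len g ≤ n} := H.eventually_notMem x (H.fin_ball n)
  obtain ⟨y, hy1, hy2⟩ := (h1.and h2).exists
  have hy3 : n ≤ H.len y := by
    simp only [mem_ofPred_eq, not_le] at hy2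
    exact hy2.le
  obtain ⟨a, ha, hd⟩ := H.exists_prefix y n hy3
  refine ⟨a, ha, ?_⟩
  rw [← dist_ι] at hd
  calc dist x.1 (H.ι a) ≤ dist x.1 (H.ι y) + dist (H.ι y) (H.ι a) := dist_triangle _ _ _
    _ ≤ H.θ ^ n + H.θ ^ n := by
        rw [dist_comm x.1, dist_comm (H.ι y) (H.ι a)]
        exact add_le_add hy1.le hd
    _ = _ := by ring

section QM

variable (y₁ y₂ : H.Bd)

open Classical in
/-- the repelling point of `g` -/
noncomputable def zeta (g : G) : H.Bd :=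
  if dist y₁ y₂ / 2 ≤ dist y₁.1 (H.ι g) then g⁻¹ • y₁ else g⁻¹ • y₂

theorem dist_zeta (h : y₁ ≠ y₂) (g : G) :
    dist (H.zeta y₁ y₂ g).1 (H.ι g⁻¹) ≤ 2 / dist y₁ y₂ * H.s g := by
  have hδ : 0 < dist y₁ y₂ := dist_pos.2 h
  have key : ∀ y : H.Bd, dist y₁ y₂ / 2 ≤ dist y.1 (H.ι g) →
      dist (g⁻¹ • y).1 (H.ι g⁻¹) ≤ 2 / dist y₁ y₂ * H.s g := by
    intro y hy
    have h1 := H.Bd_upper' g⁻¹ y
    rw [inv_inv, s_inv] at h1
    rw [smul_val]
    have h0 : 0 ≤ dist (g⁻¹ • y.1) (H.ι g⁻¹) := dist_nonneg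
    have h2 : dist (g⁻¹ • y.1) (H.ι g⁻¹) * (dist y₁ y₂ / 2) ≤ H.s g :=
      (mul_le_mul_of_nonneg_left hy h0).trans h1
    rw [div_mul_eq_mul_div, le_div_iff₀ hδ]
    linarith
  unfold zeta
  split_ifs with hc
  · exact key y₁ hc
  · refine key y₂ ?_
    push Not at hc
    have := dist_triangle_right y₁.1 y₂.1 (H.ι g)
    have h3 : dist y₁ y₂ = dist y₁.1 y₂.1 := rfl
    linarith

/-- comparison constant -/
noncomputable def A : ℝ := 2 + 2 * (2 / dist y₁ y₂)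

theorem two_le_C1 (h : y₁ ≠ y₂) : 2 ≤ 2 / dist y₁ y₂ := by
  have hδ : 0 < dist y₁ y₂ := dist_pos.2 h
  rw [le_div_iff₀ hδ]
  have := H.dist_Bd_le_one y₁ y₂
  linarith

theorem one_le_A (h : y₁ ≠ y₂) : 1 ≤ H.A y₁ y₂ := by
  have := H.two_le_C1 y₁ y₂ h
  unfold A; linarith

theorem d_le_m (h : y₁ ≠ y₂) (g : G) (x : H.Bd) :
    dist x.1 (H.ι g⁻¹) ≤ H.A y₁ y₂ * max (H.s g) (dist x (H.zeta y₁ y₂ g)) := by
  have h1 := H.dist_zeta y₁ y₂ h g
  have h2 := H.two_le_C1 y₁ y₂ h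
  have h3 : dist x.1 (H.ι g⁻¹) ≤ dist x (H.zeta y₁ y₂ g) + dist (H.zeta y₁ y₂ g).1 (H.ι g⁻¹) :=
    dist_triangle _ _ _
  have hs := H.s_pos g
  set M := max (H.s g) (dist x (H.zeta y₁ y₂ g)) with hM
  have h4 : H.s g ≤ M := le_max_left _ _
  have h5 : dist x (H.zeta y₁ y₂ g) ≤ M := le_max_right _ _
  unfold A
  set c := 2 / dist y₁ y₂ with hc
  have h6 : c * H.s g ≤ c * M := by gcongr
  nlinarith

theorem m_le_d (h : y₁ ≠ y₂) (g : G) (x : H.Bd) :
    max (H.s g) (dist x (H.zeta y₁ y₂ g)) ≤ H.A y₁ y₂ * dist x.1 (H.ι g⁻¹) := by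
  have h1 := H.dist_zeta y₁ y₂ h g
  have h2 := H.two_le_C1 y₁ y₂ h
  have h3 : dist x (H.zeta y₁ y₂ g) ≤ dist x.1 (H.ι g⁻¹) + dist (H.zeta y₁ y₂ g).1 (H.ι g⁻¹) :=
    dist_triangle_right x.1 (H.zeta y₁ y₂ g).1 (H.ι g⁻¹)
  have hs := H.s_pos g
  have h4 := H.s_le_dist_Bd g⁻¹ x
  rw [s_inv] at h4
  set c := 2 / dist y₁ y₂ with hc
  have h6 : c * H.s g ≤ c * (2 * dist x.1 (H.ι g⁻¹)) := by gcongr
  have h7 : 0 ≤ dist x.1 (H.ι g⁻¹) := dist_nonneg
  unfold A
  refine max_le ?_ ?_ <;> nlinarith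

theorem q3_aux (h : y₁ ≠ y₂) (T : ℝ) : ∃ R : ℕ, ∀ g g' : G, H.s g ≤ T * H.s g' →
    H.s g' ≤ T * H.s g → dist (H.zeta y₁ y₂ g) (H.zeta y₁ y₂ g') ≤ T * H.s g →
    H.len (g * g'⁻¹) ≤ R := by
  set c := 2 / dist y₁ y₂ with hc
  set B := c + T + c * T with hB
  have hK : (0:ℝ) < 1 / (4 * B ^ 2 * |T| + 1) := by positivity
  obtain ⟨R, hR⟩ := exists_pow_lt_of_lt_one hK H.θ_lt_one
  refine ⟨R, ?_⟩
  intro g g' h1 h2 h3
  have hs := H.s_pos g
  have hs' := H.s_pos g'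
  have hT : 0 < T := by
    by_contra hT
    push Not at hT
    nlinarith
  have hc2 := H.two_le_C1 y₁ y₂ h
  rw [← hc] at hc2
  by_cases hgg : g = g'
  · subst hgg; rw [mul_inv_cancel, H.len_one]; exact Nat.zero_le _
  have hne : g⁻¹ ≠ g'⁻¹ := fun h => hgg (inv_injective h)
  have hz := H.dist_zeta y₁ y₂ h g
  have hz' := H.dist_zeta y₁ y₂ h g'
  rw [← hc] at hz hz'
  have hd : dist (H.ι g⁻¹) (H.ι g'⁻¹) ≤ B * H.s g := by
    have t1 := dist_triangle4 (H.ι g⁻¹) (H.zeta y₁ y₂ g).1 (H.zeta y₁ y₂ g').1 (H.ι g'⁻¹)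
    have t2 : dist (H.zeta y₁ y₂ g).1 (H.zeta y₁ y₂ g').1 =
      dist (H.zeta y₁ y₂ g) (H.zeta y₁ y₂ g') := rfl
    rw [dist_comm (H.ι g⁻¹) (H.zeta y₁ y₂ g).1, t2] at t1
    have t3 : c * H.s g' ≤ c * (T * H.s g) := by gcongr
    rw [hB]
    nlinarith
  have hq : H.q g⁻¹ g'⁻¹ ≤ 2 * (B * H.s g) := by
    refine (H.q_le_dist _ _).trans ?_
    rw [← dist_ι]
    linarith
  have hsq := H.q_sq hne
  rw [s_inv, s_inv, inv_inv] at hsq
  by_contra hlen
  push Not at hlen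
  have hpow : H.θ ^ H.len (g * g'⁻¹) ≤ H.θ ^ R :=
    pow_le_pow_of_le_one H.θ_pos.le H.θ_le_one hlen.le
  have hq0 := H.q_nonneg g⁻¹ g'⁻¹
  have hB0 : 0 < B := by rw [hB]; positivity
  have hθR : 0 < H.θ ^ R := pow_pos H.θ_pos R
  have e1 : H.s g * H.s g' ≤ (2 * (B * H.s g)) ^ 2 * H.θ ^ R := by
    rw [← hsq]
    gcongr
    exact pow_nonneg H.θ_pos.le _
  have e2 : H.s g' ≤ 4 * B ^ 2 * H.s g * H.θ ^ R := by
    have : H.s g * H.s g' ≤ H.s g * (4 * B ^ 2 * H.s g * H.θ ^ R) := by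
      calc _ ≤ _ := e1
        _ = _ := by ring
    exact le_of_mul_le_mul_left this hs
  have e3 : H.s g' ≤ 4 * B ^ 2 * (T * H.s g') * H.θ ^ R := by
    refine e2.trans ?_
    gcongr
  have e4 : 1 ≤ 4 * B ^ 2 * T * H.θ ^ R := by
    have : H.s g' * 1 ≤ H.s g' * (4 * B ^ 2 * T * H.θ ^ R) := by
      calc _ = H.s g' := mul_one _
        _ ≤ _ := e3
        _ = _ := by ring
    exact le_of_mul_le_mul_left this hs'
  rw [abs_of_pos hT, lt_div_iff₀ (by positivity)] at hR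
  nlinarith

theorem q3 (h : y₁ ≠ y₂) (T : ℝ) : ∃ n : ℕ, ∀ g : G,
      {g' : G | H.s g ≤ T * H.s g' ∧ H.s g' ≤ T * H.s g ∧
        dist (H.zeta y₁ y₂ g) (H.zeta y₁ y₂ g') ≤ T * H.s g}.Finite ∧
      {g' : G | H.s g ≤ T * H.s g' ∧ H.s g' ≤ T * H.s g ∧
        dist (H.zeta y₁ y₂ g) (H.zeta y₁ y₂ g') ≤ T * H.s g}.ncard ≤ n := by
  obtain ⟨R, hR⟩ := H.q3_aux y₁ y₂ h T
  refine ⟨{g : G | H.len g ≤ R}.ncard, fun g => ?_⟩
  have hsub : {g' : G | H.s g ≤ T * H.s g' ∧ H.s g' ≤ T * H.s g ∧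
        dist (H.zeta y₁ y₂ g) (H.zeta y₁ y₂ g') ≤ T * H.s g} ⊆
      (fun k : G => k⁻¹ * g) '' {g : G | H.len g ≤ R} := by
    rintro g' ⟨h1, h2, h3⟩
    exact ⟨g * g'⁻¹, hR g g' h1 h2 h3, by simp⟩
  have hfin : ((fun k : G => k⁻¹ * g) '' {g : G | H.len g ≤ R}).Finite := (H.fin_ball R).image _
  exact ⟨hfin.subset hsub, (ncard_le_ncard hsub hfin).trans (ncard_image_le (H.fin_ball R))⟩

theorem q4 (h : y₁ ≠ y₂) (x : H.Bd) (r : ℝ) (hr : 0 < r) (hr1 : r ≤ 1) :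
    ∃ g : G, H.s g ≤ r ∧ r ≤ 2 * H.s g ∧
      dist x (H.zeta y₁ y₂ g) ≤ (2 + 2 / dist y₁ y₂) * r := by
  have hex : ∃ n : ℕ, H.θ ^ n ≤ r := (exists_pow_lt_of_lt_one hr H.θ_lt_one).imp fun _ h => h.le
  classical
  obtain ⟨a, ha, hd⟩ := H.exists_near x (Nat.find hex)
  have hn := Nat.find_spec hex
  set n := Nat.find hex with hndef
  have hs : H.s a⁻¹ = H.θ ^ n := by rw [s_inv, s_eq_pow, ha]
  refine ⟨a⁻¹, by rw [hs]; exact hn, ?_, ?_⟩
  · rw [hs]
    rcases Nat.eq_zero_or_pos n with h0 | h0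
    · rw [h0]; simp; linarith
    · have hlt : r < H.θ ^ (n - 1) := not_le.1 (Nat.find_min hex (Nat.sub_lt h0 one_pos))
      have h12 := H.half_le_θ
      have e : H.θ ^ n = H.θ * H.θ ^ (n - 1) := by
        rw [← pow_succ']; congr 1; omega
      rw [e]
      nlinarith [pow_pos H.θ_pos (n - 1)]
  · have hz := H.dist_zeta y₁ y₂ h a⁻¹
    rw [inv_inv, hs] at hz
    have t : dist x (H.zeta y₁ y₂ a⁻¹) ≤ dist x.1 (H.ι a) + dist (H.zeta y₁ y₂ a⁻¹).1 (H.ι a) :=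
      dist_triangle_right x.1 (H.zeta y₁ y₂ a⁻¹).1 (H.ι a)
    have hc2 := H.two_le_C1 y₁ y₂ h
    set c := 2 / dist y₁ y₂ with hc
    have : c * H.θ ^ n ≤ c * r := by gcongr
    nlinarith

/-- the `QM` structure on the boundary -/
noncomputable def qm (h : y₁ ≠ y₂) : P198Q.QM G H.Bd where
  C := 8 * H.A y₁ y₂ ^ 2
  one_le_C := by
    have := H.one_le_A y₁ y₂ h
    nlinarith
  s := H.s
  ζ := H.zeta y₁ y₂
  s_pos := H.s_pos
  s_le_one := H.s_le_one
  s_inv := H.s_inv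
  q1_upper := by
    intro g x y
    have hA := H.one_le_A y₁ y₂ h
    have hx := H.m_le_d y₁ y₂ h g x
    have hy := H.m_le_d y₁ y₂ h g y
    have hs := H.s_pos g
    have hu := H.Bd_upper g x y
    have hx0 : 0 ≤ max (H.s g) (dist x (H.zeta y₁ y₂ g)) := le_max_of_le_left hs.le
    have hy0 : 0 ≤ max (H.s g) (dist y (H.zeta y₁ y₂ g)) := le_max_of_le_left hs.le
    calc _ ≤ dist (g • x) (g • y) * ((H.A y₁ y₂ * dist x.1 (H.ι g⁻¹)) *
          (H.A y₁ y₂ * dist y.1 (H.ι g⁻¹))) := by gcongr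
      _ = H.A y₁ y₂ ^ 2 * (dist (g • x) (g • y) * (dist x.1 (H.ι g⁻¹) * dist y.1 (H.ι g⁻¹))) := by
          ring
      _ ≤ H.A y₁ y₂ ^ 2 * (2 * (H.s g * dist x y)) := by gcongr
      _ ≤ _ := by
          have : 0 ≤ H.A y₁ y₂ ^ 2 * (H.s g * dist x y) := by positivity
          nlinarith
  q1_lower := by
    intro g x y
    have hA := H.one_le_A y₁ y₂ h
    have hx := H.d_le_m y₁ y₂ h g x
    have hy := H.d_le_m y₁ y₂ h g y
    have hs := H.s_pos g
    have hu := H.Bd_lower g x y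
    calc _ ≤ _ := hu
      _ ≤ 8 * (dist (g • x) (g • y) * ((H.A y₁ y₂ * max (H.s g) (dist x (H.zeta y₁ y₂ g))) *
          (H.A y₁ y₂ * max (H.s g) (dist y (H.zeta y₁ y₂ g))))) := by gcongr
      _ = _ := by ring
  q2_upper := by
    intro g x
    have hA := H.one_le_A y₁ y₂ h
    have hx := H.m_le_d y₁ y₂ h g x
    have hy := H.m_le_d y₁ y₂ h g⁻¹ (g • x)
    rw [s_inv, inv_inv] at hy
    have hs := H.s_pos g
    have hu := H.Bd_upper' g x
    have hx0 : 0 ≤ max (H.s g) (dist x (H.zeta y₁ y₂ g)) := le_max_of_le_left hs.le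
    calc _ ≤ (H.A y₁ y₂ * dist (g • x).1 (H.ι g)) * (H.A y₁ y₂ * dist x.1 (H.ι g⁻¹)) := by gcongr
      _ = H.A y₁ y₂ ^ 2 * (dist (g • x.1) (H.ι g) * dist x.1 (H.ι g⁻¹)) := by
          rw [smul_val]; ring
      _ ≤ H.A y₁ y₂ ^ 2 * H.s g := by gcongr
      _ ≤ _ := by
          have : 0 ≤ H.A y₁ y₂ ^ 2 * H.s g := by positivity
          nlinarith
  q2_lower := by
    intro g x
    have hA := H.one_le_A y₁ y₂ h
    have hx := H.d_le_m y₁ y₂ h g x
    have hy := H.d_le_m y₁ y₂ h g⁻¹ (g • x)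
    rw [s_inv, inv_inv] at hy
    have hs := H.s_pos g
    have hu := H.Bd_lower' g x
    have hx0 : 0 ≤ max (H.s g) (dist x (H.zeta y₁ y₂ g)) := le_max_of_le_left hs.le
    have hy0 : 0 ≤ max (H.s g) (dist (g • x) (H.zeta y₁ y₂ g⁻¹)) := le_max_of_le_left hs.le
    calc _ ≤ _ := hu
      _ ≤ 4 * ((H.A y₁ y₂ * max (H.s g) (dist (g • x) (H.zeta y₁ y₂ g⁻¹))) *
          (H.A y₁ y₂ * max (H.s g) (dist x (H.zeta y₁ y₂ g)))) := by gcongr; exact hy
      _ = 4 * H.A y₁ y₂ ^ 2 * (max (H.s g) (dist (g • x) (H.zeta y₁ y₂ g⁻¹)) *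
          max (H.s g) (dist x (H.zeta y₁ y₂ g))) := by ring
      _ ≤ _ := by
          gcongr
          norm_num
  q3 := H.q3 y₁ y₂ h
  q4 := by
    intro x r hr hr1
    obtain ⟨g, h1, h2, h3⟩ := H.q4 y₁ y₂ h x r hr hr1
    have hA := H.one_le_A y₁ y₂ h
    have hc2 := H.two_le_C1 y₁ y₂ h
    have hA2 : 2 + 2 / dist y₁ y₂ ≤ 8 * H.A y₁ y₂ ^ 2 := by
      have : 2 + 2 / dist y₁ y₂ ≤ H.A y₁ y₂ := by unfold A; linarith
      nlinarith
    refine ⟨g, h1.trans (by nlinarith), h2.trans ?_, h3.trans ?_⟩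
    · have := H.s_pos g
      have : 2 ≤ 8 * H.A y₁ y₂ ^ 2 := by nlinarith
      gcongr
    · gcongr

end QM

end HypLen

end P198H
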