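import Mathlib

/-!
# P198, block H: length functions of hyperbolic groups, the visual metric on the group

`HypLen G` packs a word length together with the four-point inequality for Gromov products at `1`.
`X H` is the group with a (true) metric comparable with `θ ^ (g|h)`.
-/

namespace P198H

open Set Metric Filter Topology
open scoped NNReal

/-- Gromov product at `1` computed from a length function -/
noncomputable def gp {G : Type*} [Group G] (len : G → ℕ) (g h : G) : ℝ :=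
  ((len g : ℝ) + len h - len (g⁻¹ * h)) / 2

/-- word length with the four-point inequality at the base point `1` -/
structure HypLen (G : Type*) [Group G] where
  len : G → ℕ
  len_one : len 1 = 0
  len_inv : ∀ g, len g⁻¹ = len g
  len_mul : ∀ g h, len (g * h) ≤ len g + len h
  fin_ball : ∀ n, {g : G | len g ≤ n}.Finite
  split : ∀ g n, n ≤ len g → ∃ a b, g = a * b ∧ len a = n ∧ len b = len g - n
  D : ℝ
  one_le_D : 1 ≤ D
  hyp : ∀ a b c, min (gp len a b) (gp len b c) - D ≤ gp len a c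

variable {G : Type*} [Group G]

namespace HypLen

variable (H : HypLen G)

/-- Gromov product -/
noncomputable def g2 (a b : G) : ℝ := gp H.len a b

theorem D_pos : 0 < H.D := lt_of_lt_of_le one_pos H.one_le_D

theorem g2_def (a b : G) : H.g2 a b = ((H.len a : ℝ) + H.len b - H.len (a⁻¹ * b)) / 2 := rfl

theorem g2_comm (a b : G) : H.g2 a b = H.g2 b a := by
  have : H.len (a⁻¹ * b) = H.len (b⁻¹ * a) := by
    rw [← H.len_inv (a⁻¹ * b)]; congr 1; group
  rw [g2_def, g2_def, this]; ring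

theorem g2_nonneg (a b : G) : 0 ≤ H.g2 a b := by
  have h := H.len_mul a⁻¹ b
  rw [H.len_inv] at h
  have h' : (H.len (a⁻¹ * b) : ℝ) ≤ H.len a + H.len b := by exact_mod_cast h
  rw [g2_def]; linarith

theorem g2_le_left (a b : G) : H.g2 a b ≤ H.len a := by
  have h := H.len_mul a (a⁻¹ * b)
  rw [mul_inv_cancel_left] at h
  have h' : (H.len b : ℝ) ≤ H.len a + H.len (a⁻¹ * b) := by exact_mod_cast h
  rw [g2_def]; linarith

theorem g2_le_right (a b : G) : H.g2 a b ≤ H.len b := by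
  rw [g2_comm]; exact H.g2_le_left b a

/-- base of the visual metric: `θ ^ (-2D) = 2` -/
noncomputable def θ : ℝ := (1 / 2 : ℝ) ^ (1 / (2 * H.D))

theorem θ_pos : 0 < H.θ := Real.rpow_pos_of_pos (by norm_num) _

theorem θ_lt_one : H.θ < 1 :=
  Real.rpow_lt_one (by norm_num) (by norm_num) (by have := H.D_pos; positivity)

theorem θ_le_one : H.θ ≤ 1 := H.θ_lt_one.le

theorem θ_neg_D : H.θ ^ (-(H.D)) * H.θ ^ (-(H.D)) = 2 := by
  have hD := H.D_pos
  rw [← Real.rpow_add H.θ_pos, θ, ← Real.rpow_mul (by norm_num)]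
  have : 1 / (2 * H.D) * (-H.D + -H.D) = -1 := by field_simp; ring
  rw [this, Real.rpow_neg_one]; norm_num

theorem one_le_θ_neg_D : 1 ≤ H.θ ^ (-(H.D)) :=
  Real.one_le_rpow_of_pos_of_le_one_of_nonpos H.θ_pos H.θ_le_one (by have := H.D_pos; linarith)

open Classical in
/-- the pre-distance -/
noncomputable def q (a b : G) : ℝ := if a = b then 0 else H.θ ^ (H.g2 a b)

theorem q_self (a : G) : H.q a a = 0 := by simp [q]

theorem q_of_ne {a b : G} (h : a ≠ b) : H.q a b = H.θ ^ (H.g2 a b) := by simp [q, h]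

theorem q_nonneg (a b : G) : 0 ≤ H.q a b := by
  unfold q; split_ifs
  · exact le_rfl
  · exact (Real.rpow_pos_of_pos H.θ_pos _).le

theorem q_le (a b : G) : H.q a b ≤ H.θ ^ (H.g2 a b) := by
  unfold q; split_ifs
  · exact (Real.rpow_pos_of_pos H.θ_pos _).le
  · exact le_rfl

theorem q_pos {a b : G} (h : a ≠ b) : 0 < H.q a b := by
  rw [H.q_of_ne h]; exact Real.rpow_pos_of_pos H.θ_pos _

theorem q_comm (a b : G) : H.q a b = H.q b a := by
  by_cases h : a = b
  · subst h; rfl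
  · rw [H.q_of_ne h, H.q_of_ne (Ne.symm h), H.g2_comm]

theorem q_tri (a b c : G) : H.q a c ≤ H.θ ^ (-(H.D)) * max (H.q a b) (H.q b c) := by
  have h1 := H.one_le_θ_neg_D
  have hm : 0 ≤ max (H.q a b) (H.q b c) := le_max_of_le_left (H.q_nonneg a b)
  have hθ : 0 ≤ H.θ ^ (-(H.D)) := le_trans zero_le_one h1
  by_cases hac : a = c
  · subst hac; rw [q_self]; positivity
  by_cases hab : a = b
  · subst hab
    calc H.q a c ≤ 1 * max (H.q a a) (H.q a c) := by rw [one_mul]; exact le_max_right _ _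
      _ ≤ _ := by gcongr
  by_cases hbc : b = c
  · subst hbc
    calc H.q a b ≤ 1 * max (H.q a b) (H.q b b) := by rw [one_mul]; exact le_max_left _ _
      _ ≤ _ := by gcongr
  have hy := H.hyp a b c
  rw [H.q_of_ne hac, H.q_of_ne hab, H.q_of_ne hbc]
  have hmax : max (H.θ ^ H.g2 a b) (H.θ ^ H.g2 b c) = H.θ ^ (min (H.g2 a b) (H.g2 b c)) := by
    rcases le_total (H.g2 a b) (H.g2 b c) with h | h
    · rw [min_eq_left h, max_eq_left (Real.rpow_le_rpow_of_exponent_ge H.θ_pos H.θ_le_one h)]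
    · rw [min_eq_right h, max_eq_right (Real.rpow_le_rpow_of_exponent_ge H.θ_pos H.θ_le_one h)]
  rw [hmax, ← Real.rpow_add H.θ_pos]
  refine Real.rpow_le_rpow_of_exponent_ge H.θ_pos H.θ_le_one ?_
  have : min (H.g2 a b) (H.g2 b c) - H.D ≤ H.g2 a c := hy
  linarith

/-- pre-distance in `ℝ≥0` -/
noncomputable def qn (a b : G) : ℝ≥0 := ⟨H.q a b, H.q_nonneg a b⟩

@[simp] theorem coe_qn (a b : G) : (H.qn a b : ℝ) = H.q a b := rfl

theorem qn_self (a : G) : H.qn a a = 0 := by
  apply NNReal.coe_injective; simp [q_self]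

theorem qn_comm (a b : G) : H.qn a b = H.qn b a := by
  apply NNReal.coe_injective; simp [H.q_comm a b]

theorem qn_four (a b c d : G) : H.qn a d ≤ 2 * max (H.qn a b) (max (H.qn b c) (H.qn c d)) := by
  rw [← NNReal.coe_le_coe]
  push_cast
  simp only [coe_qn]
  have h1 := H.q_tri a b d
  have h2 := H.q_tri b c d
  have hθ := H.one_le_θ_neg_D
  have h0 : 0 ≤ H.θ ^ (-(H.D)) := le_trans zero_le_one hθ
  set M := max (H.q a b) (max (H.q b c) (H.q c d)) with hM
  have hab : H.q a b ≤ M := le_max_left _ _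
  have hbcd : max (H.q b c) (H.q c d) ≤ M := le_max_right _ _
  have hM0 : 0 ≤ M := (H.q_nonneg a b).trans hab
  calc H.q a d ≤ H.θ ^ (-(H.D)) * max (H.q a b) (H.q b d) := h1
    _ ≤ H.θ ^ (-(H.D)) * (H.θ ^ (-(H.D)) * M) := by
        refine mul_le_mul_of_nonneg_left (max_le ?_ ?_) h0
        · calc H.q a b ≤ 1 * M := by rw [one_mul]; exact hab
            _ ≤ _ := by gcongr
        · exact h2.trans (by gcongr)
    _ = 2 * M := by rw [← mul_assoc, H.θ_neg_D]

/-- The group as a metric space. -/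
def X (_H : HypLen G) : Type _ := G

/-- identification -/
def toX (g : G) : H.X := g

/-- identification -/
def ofX (x : H.X) : G := x

noncomputable instance : MetricSpace H.X :=
  letI P : PseudoMetricSpace G := PseudoMetricSpace.ofPreNNDist H.qn H.qn_self H.qn_comm
  { P with
    eq_of_dist_eq_zero := by
      intro x y h
      have h2 := PseudoMetricSpace.le_two_mul_dist_ofPreNNDist H.qn H.qn_self H.qn_comm H.qn_four x y
      have h3 : (H.qn x y : ℝ) ≤ 0 := by
        refine h2.trans ?_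
        have : @dist G P.toDist x y = 0 := h
        rw [this]; simp
      by_contra hne
      exact absurd (H.q_pos (a := x) (b := y) hne) (not_lt.2 h3) }

theorem dist_le_q (a b : G) : dist (H.toX a) (H.toX b) ≤ H.q a b :=
  PseudoMetricSpace.dist_ofPreNNDist_le H.qn H.qn_self H.qn_comm a b

theorem q_le_dist (a b : G) : H.q a b ≤ 2 * dist (H.toX a) (H.toX b) :=
  PseudoMetricSpace.le_two_mul_dist_ofPreNNDist H.qn H.qn_self H.qn_comm H.qn_four a b

instance : MulAction G H.X where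
  smul g x := H.toX (g * H.ofX x)
  one_smul x := one_mul (H.ofX x)
  mul_smul g h x := mul_assoc g h (H.ofX x)

theorem smul_toX (g a : G) : g • H.toX a = H.toX (g * a) := rfl

/-- scale of a group element -/
noncomputable def s (g : G) : ℝ := H.θ ^ (H.len g : ℝ)

theorem s_pos (g : G) : 0 < H.s g := Real.rpow_pos_of_pos H.θ_pos _

theorem s_le_one (g : G) : H.s g ≤ 1 :=
  Real.rpow_le_one H.θ_pos.le H.θ_le_one (Nat.cast_nonneg _)

theorem s_inv (g : G) : H.s g⁻¹ = H.s g := by rw [s, H.len_inv, s]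

theorem s_eq_pow (g : G) : H.s g = H.θ ^ H.len g := by rw [s, Real.rpow_natCast]

theorem s_le_q {a g : G} (h : a ≠ g) : H.s g ≤ H.q a g := by
  rw [H.q_of_ne h, s]
  exact Real.rpow_le_rpow_of_exponent_ge H.θ_pos H.θ_le_one (H.g2_le_right a g)

/-- exact transformation rule of Gromov products -/
theorem g2_mul (g x y : G) :
    H.g2 (g * x) (g * y) + (H.g2 x g⁻¹ + H.g2 y g⁻¹) = H.len g + H.g2 x y := by
  simp only [g2_def]
  have e1 : (g * x)⁻¹ * (g * y) = x⁻¹ * y := by group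
  have e2 : H.len (x⁻¹ * g⁻¹) = H.len (g * x) := by rw [← H.len_inv (g * x)]; congr 1; group
  have e3 : H.len (y⁻¹ * g⁻¹) = H.len (g * y) := by rw [← H.len_inv (g * y)]; congr 1; group
  rw [e1, e2, e3, H.len_inv]; ring

theorem g2_mul' (g x : G) : H.g2 (g * x) g + H.g2 x g⁻¹ = H.len g := by
  simp only [g2_def]
  have e1 : H.len ((g * x)⁻¹ * g) = H.len x := by rw [← H.len_inv x]; congr 1; group
  have e2 : H.len (x⁻¹ * g⁻¹) = H.len (g * x) := by rw [← H.len_inv (g * x)]; congr 1; group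
  rw [e1, e2, H.len_inv]; ring

theorem q_mul {g x y : G} (hxy : x ≠ y) (hx : x ≠ g⁻¹) (hy : y ≠ g⁻¹) :
    H.q (g * x) (g * y) * (H.q x g⁻¹ * H.q y g⁻¹) = H.s g * H.q x y := by
  have h1 : g * x ≠ g * y := fun h => hxy (mul_left_cancel h)
  rw [H.q_of_ne h1, H.q_of_ne hx, H.q_of_ne hy, H.q_of_ne hxy, s, ← Real.rpow_add H.θ_pos,
    ← Real.rpow_add H.θ_pos, ← Real.rpow_add H.θ_pos, H.g2_mul]

theorem q_mul' {g x : G} (hx1 : x ≠ 1) (hx : x ≠ g⁻¹) : H.q (g * x) g * H.q x g⁻¹ = H.s g := by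
  have h1 : g * x ≠ g := fun h => hx1 (mul_eq_left.1 h)
  rw [H.q_of_ne h1, H.q_of_ne hx, s, ← Real.rpow_add H.θ_pos, H.g2_mul']

/-- (U) -/
theorem dist_mul_upper (g x y : G) :
    dist (H.toX (g * x)) (H.toX (g * y)) * (dist (H.toX x) (H.toX g⁻¹) * dist (H.toX y) (H.toX g⁻¹))
      ≤ 2 * (H.s g * dist (H.toX x) (H.toX y)) := by
  have hs := (H.s_pos g).le
  by_cases hxy : x = y
  · subst hxy; simp
  by_cases hx : x = g⁻¹
  · subst hx; simp; positivity
  by_cases hy : y = g⁻¹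
  · subst hy; simp; positivity
  have h := H.q_mul hxy hx hy
  have h1 := H.dist_le_q (g * x) (g * y)
  have h2 := H.dist_le_q x g⁻¹
  have h3 := H.dist_le_q y g⁻¹
  have h4 := H.q_le_dist x y
  calc _ ≤ H.q (g * x) (g * y) * (H.q x g⁻¹ * H.q y g⁻¹) := by
        have := H.q_nonneg x g⁻¹
        have := H.q_nonneg (g * x) (g * y)
        gcongr
    _ = H.s g * H.q x y := h
    _ ≤ H.s g * (2 * dist (H.toX x) (H.toX y)) := by gcongr
    _ = _ := by ring

/-- (L) -/
theorem dist_mul_lower {g x y : G} (hx : x ≠ g⁻¹) (hy : y ≠ g⁻¹) :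
    H.s g * dist (H.toX x) (H.toX y) ≤ 8 * (dist (H.toX (g * x)) (H.toX (g * y)) *
      (dist (H.toX x) (H.toX g⁻¹) * dist (H.toX y) (H.toX g⁻¹))) := by
  by_cases hxy : x = y
  · subst hxy; simp
  have h := H.q_mul hxy hx hy
  have h1 := H.q_le_dist (g * x) (g * y)
  have h2 := H.q_le_dist x g⁻¹
  have h3 := H.q_le_dist y g⁻¹
  have h4 := H.dist_le_q x y
  have hs := (H.s_pos g).le
  calc H.s g * dist (H.toX x) (H.toX y) ≤ H.s g * H.q x y := by gcongr
    _ = H.q (g * x) (g * y) * (H.q x g⁻¹ * H.q y g⁻¹) := h.symm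
    _ ≤ (2 * dist (H.toX (g * x)) (H.toX (g * y))) *
        ((2 * dist (H.toX x) (H.toX g⁻¹)) * (2 * dist (H.toX y) (H.toX g⁻¹))) := by
        have := H.q_nonneg x g⁻¹
        have := H.q_nonneg y g⁻¹
        have := H.q_nonneg (g * x) (g * y)
        gcongr
    _ = _ := by ring

/-- (U2) -/
theorem dist_mul_upper' (g x : G) :
    dist (H.toX (g * x)) (H.toX g) * dist (H.toX x) (H.toX g⁻¹) ≤ H.s g := by
  have hs := (H.s_pos g).le
  by_cases hx1 : x = 1
  · subst hx1; simpa using hs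
  by_cases hx : x = g⁻¹
  · subst hx; simpa using hs
  rw [← H.q_mul' hx1 hx]
  have := H.q_nonneg (g * x) g
  have h1 := H.dist_le_q (g * x) g
  have h2 := H.dist_le_q x g⁻¹
  gcongr

/-- (L2) -/
theorem dist_mul_lower' {g x : G} (hx1 : x ≠ 1) (hx : x ≠ g⁻¹) :
    H.s g ≤ 4 * (dist (H.toX (g * x)) (H.toX g) * dist (H.toX x) (H.toX g⁻¹)) := by
  rw [← H.q_mul' hx1 hx]
  have h1 := H.q_le_dist (g * x) g
  have h2 := H.q_le_dist x g⁻¹
  have := H.q_nonneg x g⁻¹
  have := H.q_nonneg (g * x) g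
  calc _ ≤ (2 * dist (H.toX (g * x)) (H.toX g)) * (2 * dist (H.toX x) (H.toX g⁻¹)) := by gcongr
    _ = _ := by ring

theorem s_le_dist {a g : G} (h : a ≠ g) : H.s g ≤ 2 * dist (H.toX a) (H.toX g) :=
  (H.s_le_q h).trans (H.q_le_dist a g)

theorem dist_toX_mul_le (g x y : G) :
    dist (H.toX (g * x)) (H.toX (g * y)) ≤ 2 * (H.s g)⁻¹ * dist (H.toX x) (H.toX y) := by
  by_cases hxy : x = y
  · subst hxy; simp
  have hne : g * x ≠ g * y := fun h => hxy (mul_left_cancel h)
  have hs := H.s_pos g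
  have key : H.q (g * x) (g * y) ≤ (H.s g)⁻¹ * H.q x y := by
    rw [H.q_of_ne hne, H.q_of_ne hxy, s, ← Real.rpow_neg H.θ_pos.le, ← Real.rpow_add H.θ_pos]
    refine Real.rpow_le_rpow_of_exponent_ge H.θ_pos H.θ_le_one ?_
    have h := H.g2_mul g x y
    have h1 := H.g2_le_right x g⁻¹
    have h2 := H.g2_le_right y g⁻¹
    rw [H.len_inv] at h1 h2
    linarith
  calc _ ≤ H.q (g * x) (g * y) := H.dist_le_q _ _
    _ ≤ (H.s g)⁻¹ * H.q x y := key
    _ ≤ (H.s g)⁻¹ * (2 * dist (H.toX x) (H.toX y)) := by gcongr; exact H.q_le_dist _ _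
    _ = _ := by ring

/-- left multiplication is Lipschitz -/
theorem dist_smul_le (g : G) (x y : H.X) :
    dist (g • x) (g • y) ≤ 2 * (H.s g)⁻¹ * dist x y :=
  H.dist_toX_mul_le g x y

instance : UniformContinuousConstSMul G H.X where
  uniformContinuous_const_smul g :=
    (LipschitzWith.of_dist_le_mul (K := ⟨2 * (H.s g)⁻¹, by have := H.s_pos g; positivity⟩)
      (fun x y => H.dist_smul_le g x y)).uniformContinuous

/-- a prefix is close -/
theorem exists_prefix (y : G) (n : ℕ) (hn : n ≤ H.len y) :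
    ∃ a, H.len a = n ∧ dist (H.toX a) (H.toX y) ≤ H.θ ^ n := by
  obtain ⟨a, b, rfl, ha, hb⟩ := H.split y n hn
  refine ⟨a, ha, (H.dist_le_q _ _).trans ((H.q_le _ _).trans ?_)⟩
  have : H.g2 a (a * b) = n := by
    rw [g2_def, inv_mul_cancel_left, hb, ha, Nat.cast_sub hn]; ring
  rw [this, Real.rpow_natCast]

theorem totallyBounded : TotallyBounded (univ : Set H.X) := by
  rw [Metric.totallyBounded_iff]
  intro ε hε
  obtain ⟨n, hn⟩ := exists_pow_lt_of_lt_one hε H.θ_lt_one
  refine ⟨{x : H.X | H.len (H.ofX x) ≤ n}, H.fin_ball n, ?_⟩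
  intro x _
  simp only [mem_iUnion]
  by_cases h : H.len (H.ofX x) ≤ n
  · exact ⟨x, h, mem_ball_self hε⟩
  · push Not at h
    obtain ⟨a, ha, hd⟩ := H.exists_prefix (H.ofX x) n h.le
    refine ⟨H.toX a, ?_, ?_⟩
    · change H.len a ≤ n
      exact ha.le
    · rw [mem_ball, dist_comm]
      exact lt_of_le_of_lt hd hn

end HypLen

end P198H
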