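import Vale.Agent.P198.H.Four
import Vale.Agent.P198.H.HypLen

/-!
# P198, block Ha: the length function of a hyperbolic group
-/

namespace Vale.Agent.P198.H

open Set

variable {G : Type} [Group G] {S : Finset G}

theorem gp_eq (g h : G) : P198H.gp (wlen S) g h = gp S g h := rfl

/-- **Ha.** The word length of a group with thin geodesic triangles is a `HypLen`. -/
noncomputable def hypLen (hS : Subgroup.closure (S : Set G) = ⊤) {δ : ℕ} (h : Thin S δ) :
    P198H.HypLen G where
  len := wlen S
  len_one := wlen_one
  len_inv := wlen_inv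
  len_mul := wlen_mul_le hS
  fin_ball := finite_ball hS
  split := exists_split hS
  D := 3 * δ + 1
  one_le_D := by
    have : (0 : ℝ) ≤ δ := Nat.cast_nonneg _
    linarith
  hyp := four_point_of_thin hS h

@[simp] theorem hypLen_len (hS : Subgroup.closure (S : Set G) = ⊤) {δ : ℕ} (h : Thin S δ) :
    (hypLen hS h).len = wlen S := rfl

theorem hypLen_g2 (hS : Subgroup.closure (S : Set G) = ⊤) {δ : ℕ} (h : Thin S δ) (a b : G) :
    (hypLen hS h).g2 a b = gp S a b := rfl

end Vale.Agent.P198.H
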