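import Vale.Agent.P198.H.ShadowMod
import Vale.Agent.P198.H.OfThin
import Vale.Agent.P198.H.Bd

/-! # P198 block Hh/S: glue between Theorem A (nets) and the Stage 1 statement (shadows) -/

namespace Vale.Agent.P198.H

open Set Filter Topology Metric TopologicalSpace

open P198H (HypLen)

section Count

variable {G : Type} [Group G] (H : HypLen G)

theorem count_near (T : ℝ) : ∃ n : ℕ, ∀ (k : ℕ) (z : H.Bd) (F : Finset G),
    (∀ g ∈ F, H.len g = k) → (∀ g ∈ F, dist z.1 (H.ι g) ≤ T * H.θ ^ k) → F.card ≤ n := by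
  classical
  have hθ := H.θ_pos
  have hθ1 := H.θ_lt_one
  obtain ⟨m, hm⟩ : ∃ m : ℕ, 4 * T < (H.θ⁻¹) ^ m :=
    pow_unbounded_of_one_lt _ ((one_lt_inv₀ hθ).2 hθ1)
  refine ⟨(H.fin_ball (2 * m)).toFinset.card, ?_⟩
  intro k z F hF1 hF2
  rcases F.eq_empty_or_nonempty with rfl | ⟨g₀, hg₀⟩
  · simp
  · refine Finset.card_le_card_of_injOn (fun g => g₀⁻¹ * g) ?_ ?_
    · intro g hg
      simp only [Set.Finite.coe_toFinset, mem_setOf_eq]
      by_cases hgg : g₀ = g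
      · subst hgg; simp [H.len_one]
      have h1 : dist (H.ι g₀) (H.ι g) ≤ 2 * (T * H.θ ^ k) := by
        calc dist (H.ι g₀) (H.ι g) ≤ dist (H.ι g₀) z.1 + dist z.1 (H.ι g) := dist_triangle _ _ _
          _ ≤ T * H.θ ^ k + T * H.θ ^ k := by
              refine add_le_add ?_ (hF2 g hg)
              rw [dist_comm]; exact hF2 g₀ hg₀
          _ = _ := by ring
      rw [H.dist_ι] at h1
      have h2 := H.q_le_dist g₀ g
      rw [H.q_of_ne hgg] at h2
      have h3 : H.θ ^ (H.g2 g₀ g) ≤ 4 * T * H.θ ^ k := by linarith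
      have h4 : H.g2 g₀ g = k - (H.len (g₀⁻¹ * g) : ℝ) / 2 := by
        rw [H.g2_def, hF1 g₀ hg₀, hF1 g hg]; ring
      by_contra hlt
      push_neg at hlt
      have h5 : H.g2 g₀ g ≤ (k : ℝ) - m := by
        rw [h4]
        have : ((2 * m : ℕ) : ℝ) ≤ H.len (g₀⁻¹ * g) := by exact_mod_cast hlt.le
        push_cast at this
        linarith
      have h6 : H.θ ^ ((k : ℝ) - m) ≤ H.θ ^ (H.g2 g₀ g) :=
        Real.rpow_le_rpow_of_exponent_ge hθ hθ1.le h5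
      have h7 : H.θ ^ ((k : ℝ) - m) = H.θ ^ k * (H.θ⁻¹) ^ m := by
        rw [Real.rpow_sub hθ, Real.rpow_natCast, Real.rpow_natCast, inv_pow, div_eq_mul_inv]
      have h8 : 4 * T * H.θ ^ k < H.θ ^ k * (H.θ⁻¹) ^ m := by
        have := pow_pos hθ k
        nlinarith
      linarith
    · intro a _ b _ hab
      exact mul_left_cancel hab

end Count

/-- Output of block Hd: the ray boundary is homeomorphic to the completion boundary. -/
def StmtHd : Prop :=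
  ∀ (G : Type) [Group G] (S : Finset G) (hS : Subgroup.closure (S : Set G) = ⊤) (δ : ℕ)
    (h : Thin S δ), ∃ e : Bdry S ≃ₜ (hypLen hS h).Bd, ∃ C : ℝ, ∀ (r : Ray S) (n : ℕ),
      dist (e (Quot.mk _ r)).1 ((hypLen hS h).ι (r.1 n)) ≤ C * (hypLen hS h).θ ^ n

theorem ray_wlen' {G : Type} [Group G] {S : Finset G} (r : Ray S) (n : ℕ) :
    wlen S (r.1 n) = n := by
  have h1 := r.2.2 0 n (Nat.zero_le _)
  rw [r.2.1, wdist_one_left] at h1
  simpa using h1

theorem exists_ne_of_homeo {X : Type} [TopologicalSpace X]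
    (f : X ≃ₜ sphere (0 : EuclideanSpace ℝ (Fin 3)) 1) : ∃ x y : X, x ≠ y := by
  let p : sphere (0 : EuclideanSpace ℝ (Fin 3)) 1 := ⟨EuclideanSpace.single 0 1, by simp⟩
  refine ⟨f.symm p, f.symm (-p), fun hpp => ?_⟩
  have h1 : p = -p := f.symm.injective hpp
  have h2 : (p : EuclideanSpace ℝ (Fin 3)) = -(p : EuclideanSpace ℝ (Fin 3)) :=
    congrArg Subtype.val h1
  have h3 : (p : EuclideanSpace ℝ (Fin 3)) = 0 := by
    have h5 : (2 : ℝ) • (p : EuclideanSpace ℝ (Fin 3)) = 0 := by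
      rw [two_smul]
      nth_rewrite 1 [h2]
      simp
    exact (smul_eq_zero.1 h5).resolve_left (by norm_num)
  have h4 : ‖(p : EuclideanSpace ℝ (Fin 3))‖ = 1 := by simp
  rw [h3, norm_zero] at h4
  exact zero_ne_one h4

theorem stage1_core {G : Type} [Group G] {S : Finset G}
    (hS : Subgroup.closure (S : Set G) = ⊤) (H : HypLen G) (hlen : H.len = wlen S)
    (e : Bdry S ≃ₜ H.Bd) (C : ℝ)
    (he : ∀ (r : Ray S) (n : ℕ), dist (e (Quot.mk _ r)).1 (H.ι (r.1 n)) ≤ C * H.θ ^ n)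
    (N : ℕ → Finset H.Bd) (hN : P198Q.IsNet N) (D : ℝ → ℝ) (Q : ℕ) (hD : P198Q.Doubling H.Bd D Q)
    (hmd : ∀ t : ℝ, 0 < t → ∃ C : ℝ, ∀ k,
      P198Q.md (N k) (P198Q.hit k) (P198Q.contDiam H.Bd t) ≤ C)
    (r : ℕ) (A B : Set (Bdry S)) (hA : IsClosed A) (hB : IsClosed B) (hAB : Disjoint A B) :
    ⨆ k : ℕ, shadowMod S r k (joining A B) < ⊤ := by
  refine shadowMod_bounded (Z := H.Bd) (S := S) ?_ ?_ e (fun z g => dist z.1 (H.ι g)) H.θ H.θ_pos
    H.θ_lt_one ?_ ?_ ?_ ?_ N hN D Q hD hmd r A B hA hB hAB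
  · intro k
    exact (finite_ball hS k).subset fun g (hg : wlen S g = k) => hg.le
  · intro x k
    obtain ⟨ρ, rfl⟩ := Quot.exists_rep x
    exact ⟨ρ.1 k, ray_wlen' ρ k, ρ, rfl, k, by rw [wdist_self]⟩
  · intro z z' g
    have := dist_triangle z.1 z'.1 (H.ι g)
    rw [H.dist_val]
    linarith
  · intro z z' g
    have := dist_triangle z.1 (H.ι g) z'.1
    rw [dist_comm (H.ι g) z'.1] at this
    exact this
  · refine ⟨C, ?_⟩
    rintro g x ⟨ρ, rfl, n, hn⟩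
    have h1 : wdist S g (ρ.1 n) = 0 := Nat.le_zero.1 hn
    have h2 : g = ρ.1 n := (wdist_eq_zero hS).1 h1
    rw [h2, ray_wlen' ρ n]
    exact he ρ n
  · intro T
    have := count_near H T
    rw [hlen] at this
    exact this

theorem stage1_of (hHd : StmtHd)
    (hA : ∀ (G Z : Type) [Group G] [MetricSpace Z] [MulAction G Z] [CompactSpace Z]
      (_ : P198Q.QM G Z) (_ : P198Q.Planar Z) (N : ℕ → Finset Z) (_ : P198Q.IsNet N) (t : ℝ),
      0 < t → ∃ C : ℝ, ∀ k, P198Q.md (N k) (P198Q.hit k) (P198Q.contDiam Z t) ≤ C)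
    (hdoub : ∀ (G Z : Type) [Group G] [MetricSpace Z] [MulAction G Z] [CompactSpace Z]
      (_ : P198Q.QM G Z), ∃ (D : ℝ → ℝ) (Q : ℕ), P198Q.Doubling Z D Q)
    (hnet : ∀ (Z : Type) [MetricSpace Z] [CompactSpace Z], ∃ N : ℕ → Finset Z, P198Q.IsNet N)
    (hpl : ∀ (Z : Type) [MetricSpace Z], Nonempty (Z ≃ₜ sphere (0 : EuclideanSpace ℝ (Fin 3)) 1) →
      P198Q.Planar Z) : Stage1 := by
  intro G _ S hS δ h ⟨f⟩ r A B hAc hBc hAB
  obtain ⟨e, C, he⟩ := hHd G S hS δ h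
  obtain ⟨y₁, y₂, hy⟩ := exists_ne_of_homeo (e.symm.trans f)
  obtain ⟨N, hN⟩ := hnet (hypLen hS h).Bd
  obtain ⟨D, Q, hD⟩ := hdoub G (hypLen hS h).Bd ((hypLen hS h).qm y₁ y₂ hy)
  exact stage1_core hS (hypLen hS h) rfl e C he N hN D Q hD
    (fun t ht => hA G _ ((hypLen hS h).qm y₁ y₂ hy) (hpl _ ⟨e.symm.trans f⟩) N hN t ht)
    r A B hAc hBc hAB

end Vale.Agent.P198.H
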