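import Vale.Agent.P198.Q.TheoremA
import Vale.Agent.P198.Q.PlanarOf
import Vale.Agent.P198.H.StageOne
import Vale.Agent.P198.H.Rays

/-! # P198: Stage 1, the combinatorial 2-moduli of the boundary are bounded -/

namespace Vale.Agent.P198.H

open P198H (HypLen)

theorem stmtHd : StmtHd := by
  intro G _ S hS δ h
  refine ⟨bdryHomeo hS (hypLen hS h) rfl, 1, fun r n => ?_⟩
  rw [dist_comm, one_mul]
  exact dist_bdryHomeo hS (hypLen hS h) rfl r n

theorem stage1 : Stage1 :=
  stage1_of stmtHd (fun _ _ _ _ _ _ q hP N hN t ht => P198Q.theoremA q hP N hN t ht)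
    (fun _ _ _ _ _ _ q => by
      obtain ⟨D, Q, -, hD⟩ := P198Q.doubling q
      exact ⟨D, Q, hD⟩)
    (fun Z _ _ => P198Q.exists_net Z)
    (fun _ _ ⟨e⟩ => P198Q.planar_of_homeomorph e)

end Vale.Agent.P198.H
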