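import Vale.Agent.P198.H.Defs
import Vale.Agent.P198.H3.Defs

/-! # P198: the Stage 2 statement (Cannon's conjecture) -/

namespace Vale.Agent.P198.H

open P198H (H3)

/-- Cannon's conjecture: a hyperbolic group whose boundary is a 2-sphere acts geometrically
(properly, cocompactly, by isometries) on hyperbolic 3-space, with finite kernel -/
def Stage2 : Prop :=
  ∀ (G : Type) [Group G] (S : Finset G), Subgroup.closure (S : Set G) = ⊤ →
    ∀ δ : ℕ, Thin S δ → Nonempty (Bdry S ≃ₜ Metric.sphere (0 : EuclideanSpace ℝ (Fin 3)) 1) →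
    ∃ ρ : G →* (H3 ≃ᵢ H3), Finite ρ.ker ∧
      (∀ K : Set H3, IsCompact K → {g : G | ((ρ g) '' K ∩ K).Nonempty}.Finite) ∧
      ∃ K : Set H3, IsCompact K ∧ ⋃ g : G, (ρ g) '' K = Set.univ

end Vale.Agent.P198.H
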