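import Vale.Agent.P198.Q.PlanarOf
import Vale.Agent.P198.H.StageOne
import Vale.Agent.P198.H.Rays
import Vale.Agent.P198.H.Stage2
import Vale.Agent.P198.H3.Geo3

/-! # P198: group side of Stage 2 -/

namespace Vale.Agent.P198.H

open P198H (HypLen H3 IsMoeb)

/-- the abstract form of Stage 2: an action satisfying the axioms `QM` on a 2-sphere is conjugate
to an action by Moebius and anti-Moebius maps -/
def AbsStage2 : Prop :=
  ∀ (G Z : Type) [Group G] [Countable G] [MetricSpace Z] [MulAction G Z] [CompactSpace Z]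
    [ConnectedSpace Z] (_ : P198Q.QM G Z), P198Q.Planar Z →
    Nonempty (Z ≃ₜ Metric.sphere (0 : EuclideanSpace ℝ (Fin 3)) 1) →
    ∃ h : Z ≃ₜ OnePoint ℂ, ∀ g : G, IsMoeb (fun x => h (g • h.symm x))

theorem finite_ker {G : Type*} [Group G] (ρ : G →* (H3 ≃ᵢ H3))
    (h : ∀ K : Set H3, IsCompact K → {g : G | ((ρ g) '' K ∩ K).Nonempty}.Finite) :
    Finite ρ.ker := by
  have h1 := h {P198H.o} isCompact_singleton
  have h2 : (ρ.ker : Set G).Finite := by
    refine h1.subset fun g hg => ?_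
    have hg' : ρ g = 1 := hg
    refine ⟨P198H.o, ⟨P198H.o, rfl, ?_⟩, rfl⟩
    rw [hg']
    rfl
  exact h2.to_subtype

theorem countable_of_gen {G : Type} [Group G] {S : Finset G}
    (hS : Subgroup.closure (S : Set G) = ⊤) : Countable G := by
  have h1 : (Set.univ : Set G) = ⋃ n : ℕ, {g : G | wlen S g ≤ n} := by
    ext g
    simp only [Set.mem_univ, Set.mem_iUnion, Set.mem_ofPred_eq, true_iff]
    exact ⟨wlen S g, le_rfl⟩
  have h2 : (Set.univ : Set G).Countable := by
    rw [h1]
    exact Set.countable_iUnion fun n => (finite_ball hS n).countable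
  exact Set.countable_univ_iff.1 h2

theorem stage2_of (habs : AbsStage2) : Stage2 := by
  intro G _ S hS δ h ⟨f⟩
  have e : Bdry S ≃ₜ (hypLen hS h).Bd := bdryHomeo hS (hypLen hS h) rfl
  obtain ⟨y₁, y₂, hy⟩ := exists_ne_of_homeo (e.symm.trans f)
  have : Countable G := countable_of_gen hS
  have q : P198Q.QM G (hypLen hS h).Bd := (hypLen hS h).qm y₁ y₂ hy
  have hf : (hypLen hS h).Bd ≃ₜ Metric.sphere (0 : EuclideanSpace ℝ (Fin 3)) 1 := e.symm.trans f
  have : ConnectedSpace (Metric.sphere (0 : EuclideanSpace ℝ (Fin 3)) 1) := by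
    rw [← isConnected_iff_connectedSpace]
    refine isConnected_sphere ?_ _ zero_le_one
    rw [← Module.finrank_eq_rank, finrank_euclideanSpace_fin]
    norm_num
  have : ConnectedSpace (hypLen hS h).Bd := hf.symm.surjective.connectedSpace hf.symm.continuous
  obtain ⟨h', hm⟩ := habs G (hypLen hS h).Bd q (P198Q.planar_of_homeomorph hf) ⟨hf⟩
  obtain ⟨ρ, h1, h2⟩ := P198H.geometric_of_moebius q h' hm
  exact ⟨ρ, finite_ker ρ h1, h1, h2⟩

end Vale.Agent.P198.H
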