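import Vale.Agent.P198.H.Defs

/-! # P198 block H: auxiliary definitions (not used in the final statement) -/

namespace Vale.Agent.P198.H

open Set Filter Topology

variable {G : Type} [Group G]

/-- `S` generates and the 4-point inequality holds with constant `D` -/
structure Hyp (S : Finset G) (D : ℝ) : Prop where
  gen : Subgroup.closure (S : Set G) = ⊤
  one_le : 1 ≤ D
  four : ∀ a b c, min (gp S a b) (gp S b c) - D ≤ gp S a c

/-- equivalence of rays -/
def REq (S : Finset G) (r r' : Ray S) : Prop := ∃ C : ℕ, ∀ n, wdist S (r.1 n) (r'.1 n) ≤ C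

/-- the boundary point of a ray -/
def mkB (S : Finset G) (r : Ray S) : Bdry S := Quot.mk _ r

/-- the sequence `a` converges to the boundary point of `r` -/
def Conv (S : Finset G) (a : ℕ → G) (r : Ray S) : Prop :=
  Tendsto (fun n => gp S (a n) (r.1 n)) atTop atTop

/-- Gromov product `(r|g)` -/
noncomputable def bpr (S : Finset G) (r : Ray S) (g : G) : ℝ := ⨆ n, gp S (r.1 n) g

/-- Gromov product `(r|r')` (meaningful when `r`, `r'` are not equivalent) -/
noncomputable def brr (S : Finset G) (r r' : Ray S) : ℝ := ⨆ n, gp S (r.1 n) (r'.1 n)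

/-- a representing ray -/
noncomputable def rep (S : Finset G) (x : Bdry S) : Ray S := Quot.out x

/-- `(x|g)` for a boundary point -/
noncomputable def bx (S : Finset G) (x : Bdry S) (g : G) : ℝ := bpr S (rep S x) g

/-- `(x|y)` for distinct boundary points -/
noncomputable def bb (S : Finset G) (x y : Bdry S) : ℝ := brr S (rep S x) (rep S y)

end Vale.Agent.P198.H
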