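import Mathlib

/-! # P198: hyperbolic groups and their boundary (definitions used in the final statement) -/

namespace Vale.Agent.P198.H

open Set Filter Topology

variable {G : Type} [Group G]

/-- word length of `g` with respect to `S`: least length of a word in the letters `S ∪ S⁻¹`
representing `g` -/
noncomputable def wlen (S : Finset G) (g : G) : ℕ :=
  sInf {n | ∃ l : List G, l.length = n ∧ (∀ x ∈ l, x ∈ S ∨ x⁻¹ ∈ S) ∧ l.prod = g}

/-- distance in the Cayley graph of `G` with respect to `S` -/
noncomputable def wdist (S : Finset G) (g h : G) : ℕ := wlen S (g⁻¹ * h)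

/-- `a 0, …, a n` are the vertices of a geodesic of length `n` from `x` to `y` in the Cayley
graph -/
structure IsGeod (S : Finset G) (x y : G) (a : ℕ → G) (n : ℕ) : Prop where
  start : a 0 = x
  stop : a n = y
  geod : ∀ i j, i ≤ j → j ≤ n → wdist S (a i) (a j) = j - i

/-- each side of each geodesic triangle lies in the `δ`-neighbourhood of the union of the other
two sides -/
def Thin (S : Finset G) (δ : ℕ) : Prop :=
  ∀ (x y z : G) (a b c : ℕ → G) (l m n : ℕ), IsGeod S x y a l → IsGeod S y z b m →
    IsGeod S z x c n → ∀ i ≤ l,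
      (∃ j ≤ m, wdist S (a i) (b j) ≤ δ) ∨ (∃ j ≤ n, wdist S (a i) (c j) ≤ δ)

/-- geodesic rays from the base point `1` -/
def Ray (S : Finset G) : Type :=
  {r : ℕ → G // r 0 = 1 ∧ ∀ i j, i ≤ j → wdist S (r i) (r j) = j - i}

/-- pointwise convergence of rays -/
instance rayTop (S : Finset G) : TopologicalSpace (Ray S) :=
  ⨅ n : ℕ, TopologicalSpace.induced (fun r : Ray S => r.1 n) ⊥

/-- the boundary: geodesic rays from `1` modulo bounded distance, with the quotient topology -/
def Bdry (S : Finset G) : Type :=
  Quot fun r r' : Ray S => ∃ C : ℕ, ∀ n, wdist S (r.1 n) (r'.1 n) ≤ C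

instance bdryTop (S : Finset G) : TopologicalSpace (Bdry S) :=
  inferInstanceAs (TopologicalSpace (Quot _))

/-- shadow of the ball of radius `r` about `g`: boundary points represented by a ray that passes
at distance at most `r` from `g` -/
def shadow (S : Finset G) (r : ℕ) (g : G) : Set (Bdry S) :=
  {ξ | ∃ ρ : Ray S, Quot.mk _ ρ = ξ ∧ ∃ n, wdist S g (ρ.1 n) ≤ r}

/-- Gromov product at `1` -/
noncomputable def gp (S : Finset G) (g h : G) : ℝ :=
  ((wlen S g : ℝ) + wlen S h - wlen S (g⁻¹ * h)) / 2

end Vale.Agent.P198.H
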