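import Mathlib

/-!
# P198, block Ha: thin geodesic triangles imply the four-point inequality

`d : V → V → ℕ` is a discrete metric in which any two points are joined by a discrete geodesic.
-/

namespace P198H

variable {V : Type*}

/-- `p 0, p 1, ..., p n` is a discrete geodesic for `d`. -/
def IsGeo (d : V → V → ℕ) (n : ℕ) (p : ℕ → V) : Prop :=
  ∀ i j, i ≤ j → j ≤ n → d (p i) (p j) = j - i

/-- Every geodesic triangle is `δ`-thin: each point of a side is `δ`-close to a point of one of the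
two other sides. -/
def Thin (d : V → V → ℕ) (δ : ℕ) : Prop :=
  ∀ (l m n : ℕ) (p q r : ℕ → V), IsGeo d l p → IsGeo d m q → IsGeo d n r →
    p 0 = r 0 → p l = q 0 → q m = r n →
    ∀ i ≤ l, (∃ j ≤ m, d (p i) (q j) ≤ δ) ∨ (∃ j ≤ n, d (p i) (r j) ≤ δ)

/-- Gromov product at `w`. -/
noncomputable def gpr (d : V → V → ℕ) (w x y : V) : ℝ :=
  ((d w x : ℝ) + d w y - d x y) / 2

/-- discrete connectivity along a chain -/
theorem exists_switch (A B : ℕ → Prop) (n : ℕ) (h0 : A 0) (hn : B n) (h : ∀ i ≤ n, A i ∨ B i) :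
    ∃ i j, i ≤ j ∧ j ≤ i + 1 ∧ j ≤ n ∧ A i ∧ B j := by
  classical
  -- least index satisfying `B`
  have hex : ∃ j, B j := ⟨n, hn⟩
  obtain ⟨j, hj, hmin⟩ : ∃ j, B j ∧ ∀ i < j, ¬ B i :=
    ⟨Nat.find hex, Nat.find_spec hex, fun i hi => Nat.find_min hex hi⟩
  have hjn : j ≤ n := by
    by_contra hlt
    exact hmin n (not_le.1 hlt) hn
  rcases Nat.eq_zero_or_pos j with rfl | hpos
  · exact ⟨0, 0, le_rfl, by omega, hjn, h0, hj⟩
  · refine ⟨j - 1, j, by omega, by omega, hjn, ?_, hj⟩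
    rcases h (j - 1) (by omega) with h' | h'
    · exact h'
    · exact absurd h' (hmin _ (by omega))

section
variable (d : V → V → ℕ) (hself : ∀ x, d x x = 0) (hcomm : ∀ x y, d x y = d y x)
  (htri : ∀ x y z, d x z ≤ d x y + d y z)

include hself hcomm htri

/-- the Gromov product is at most the distance to a geodesic -/
theorem gpr_le_dist_geo {n : ℕ} {p : ℕ → V} (hp : IsGeo d n p) (w : V) {i : ℕ} (hi : i ≤ n) :
    gpr d w (p 0) (p n) ≤ d w (p i) := by
  have h1 := hp 0 i (Nat.zero_le _) hi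
  have h2 := hp i n hi le_rfl
  have h3 := hp 0 n (Nat.zero_le _) le_rfl
  have h4 := htri w (p i) (p 0)
  have h5 := htri w (p i) (p n)
  rw [hcomm (p i) (p 0)] at h4
  have h6 : d w (p 0) + d w (p n) ≤ 2 * d w (p i) + d (p 0) (p n) := by omega
  have h7 : (d w (p 0) : ℝ) + d w (p n) ≤ 2 * d w (p i) + d (p 0) (p n) := by exact_mod_cast h6
  unfold gpr
  linarith

/-- the distance to a geodesic is at most the Gromov product plus `2δ + 1` -/
theorem exists_geo_le {δ : ℕ} (hthin : Thin d δ) (hgeo : ∀ x y, ∃ p : ℕ → V, IsGeo d (d x y) p ∧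
      p 0 = x ∧ p (d x y) = y)
    {n : ℕ} {p : ℕ → V} (hp : IsGeo d n p) (w : V) :
    ∃ i ≤ n, (d w (p i) : ℝ) ≤ gpr d w (p 0) (p n) + 2 * δ + 1 := by
  obtain ⟨q, hq, hq0, hq1⟩ := hgeo (p n) w
  obtain ⟨r, hr, hr0, hr1⟩ := hgeo (p 0) w
  have key := hthin n _ _ p q r hp hq hr hr0.symm hq0.symm (hq1.trans hr1.symm)
  obtain ⟨i, j, hij, hji, hjn, hA, hB⟩ := exists_switch
    (fun i => ∃ j ≤ d (p 0) w, d (p i) (r j) ≤ δ) (fun i => ∃ j ≤ d (p n) w, d (p i) (q j) ≤ δ) n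
    ⟨0, Nat.zero_le _, by rw [hr0, hself]; exact Nat.zero_le _⟩
    ⟨0, Nat.zero_le _, by rw [hq0, hself]; exact Nat.zero_le _⟩
    (fun i hi => (key i hi).symm)
  obtain ⟨a, ha, hda⟩ := hA
  obtain ⟨b, hb, hdb⟩ := hB
  refine ⟨i, hij.trans hjn, ?_⟩
  -- distances along `r` and `q`
  have r1 := hr 0 a (Nat.zero_le _) ha
  have r2 := hr a _ ha le_rfl
  have q1 := hq 0 b (Nat.zero_le _) hb
  have q2 := hq b _ hb le_rfl
  rw [hr0] at r1
  rw [hr1] at r2
  rw [hq0] at q1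
  rw [hq1] at q2
  have pij := hp i j hij hjn
  have t1 := htri (p 0) (r a) (p i)
  have t2 := htri w (r a) (p i)
  have t3 := htri (p n) (q b) (p j)
  have t4 := htri w (q b) (p j)
  have t5 := htri w (p j) (p i)
  have t6 := htri (p 0) (p i) (p j)
  have t7 := htri (p 0) (p j) (p n)
  rw [hcomm (r a) (p i)] at t1 t2
  rw [hcomm (q b) (p j)] at t3 t4
  rw [hcomm (p j) (p i)] at t5
  rw [hcomm w (r a)] at t2
  rw [hcomm w (q b)] at t4
  rw [hcomm (p j) (p n)] at t7
  have c1 := hcomm w (p 0)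
  have c2 := hcomm w (p n)
  have h6 : 2 * d w (p i) + d (p 0) (p n) ≤ d w (p 0) + d w (p n) + 4 * δ + 2 := by omega
  have h7 : 2 * (d w (p i) : ℝ) + d (p 0) (p n) ≤ d w (p 0) + d w (p n) + 4 * δ + 2 := by
    exact_mod_cast h6
  unfold gpr
  linarith

/-- **Thin triangles imply the four-point inequality.** -/
theorem four_point {δ : ℕ} (hthin : Thin d δ) (hgeo : ∀ x y, ∃ p : ℕ → V, IsGeo d (d x y) p ∧
      p 0 = x ∧ p (d x y) = y) (w x y z : V) :
    min (gpr d w x y) (gpr d w y z) - (3 * δ + 1) ≤ gpr d w x z := by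
  obtain ⟨p, hp, hp0, hp1⟩ := hgeo x z
  obtain ⟨q, hq, hq0, hq1⟩ := hgeo z y
  obtain ⟨r, hr, hr0, hr1⟩ := hgeo x y
  obtain ⟨i, hi, hle⟩ := exists_geo_le d hself hcomm htri hthin hgeo hp w
  rw [hp0, hp1] at hle
  rcases hthin _ _ _ p q r hp hq hr (hp0.trans hr0.symm) (hp1.trans hq0.symm) (hq1.trans hr1.symm)
    i hi with ⟨j, hj, hd⟩ | ⟨j, hj, hd⟩
  · have h1 := gpr_le_dist_geo d hself hcomm htri hq w hj
    rw [hq0, hq1] at h1
    have h2 : gpr d w z y = gpr d w y z := by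
      unfold gpr
      rw [hcomm z y]
      ring
    have h3 := htri w (p i) (q j)
    have h4 : (d w (q j) : ℝ) ≤ d w (p i) + δ := by
      have : d w (q j) ≤ d w (p i) + δ := by omega
      exact_mod_cast this
    have h5 := min_le_right (gpr d w x y) (gpr d w y z)
    linarith
  · have h1 := gpr_le_dist_geo d hself hcomm htri hr w hj
    rw [hr0, hr1] at h1
    have h3 := htri w (p i) (r j)
    have h4 : (d w (r j) : ℝ) ≤ d w (p i) + δ := by
      have : d w (r j) ≤ d w (p i) + δ := by omega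
      exact_mod_cast this
    have h5 := min_le_left (gpr d w x y) (gpr d w y z)
    linarith

end

end P198H
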