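import Vale.Agent.P198.H.Word
import Vale.Agent.P198.H.FourPoint

/-!
# P198, block Ha: thin geodesic triangles imply the four-point inequality
-/

namespace Vale.Agent.P198.H

open Set

variable {G : Type} [Group G] {S : Finset G}

theorem thin_iff_aux {δ : ℕ} (h : Thin S δ) : P198H.Thin (wdist S) δ := by
  intro l m n p q r hp hq hr h0 h1 h2 i hi
  have gp' : IsGeod S (p 0) (p l) p l := ⟨rfl, rfl, hp⟩
  have gq : IsGeod S (p l) (q m) q m := ⟨h1.symm, rfl, hq⟩
  have gr : IsGeod S (p 0) (q m) r n := ⟨h0.symm, h2.symm, hr⟩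
  rcases h _ _ _ p q (fun i => r (n - i)) l m n gp' gq gr.rev i hi with h' | ⟨j, hj, hd⟩
  · exact Or.inl h'
  · exact Or.inr ⟨n - j, by omega, hd⟩

/-- **Thin triangles imply the four-point inequality** (with constant `3δ + 1`). -/
theorem four_point_of_thin (hS : Subgroup.closure (S : Set G) = ⊤) {δ : ℕ} (h : Thin S δ)
    (a b c : G) : min (gp S a b) (gp S b c) - (3 * δ + 1) ≤ gp S a c := by
  have hgeo : ∀ x y, ∃ p : ℕ → G, P198H.IsGeo (wdist S) (wdist S x y) p ∧
      p 0 = x ∧ p (wdist S x y) = y := by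
    intro x y
    obtain ⟨p, hp⟩ := exists_geod hS x y
    exact ⟨p, hp.geod, hp.start, hp.stop⟩
  have := P198H.four_point (wdist S) wdist_self wdist_comm (wdist_triangle hS) (thin_iff_aux h)
    hgeo 1 a b c
  simpa [P198H.gpr, gp, wdist] using this

end Vale.Agent.P198.H
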