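import Vale.Agent.P198.H.Stage1
import Vale.Agent.P198.Q.Mod

/-! # P198 block Hh: bounded net moduli give bounded shadow moduli -/

namespace Vale.Agent.P198.H

open Set Filter Topology Metric TopologicalSpace
open scoped ENNReal Classical

variable {G : Type} [Group G]

theorem tsum_sub_eq {P : G → Prop} {F : Finset G} (h : ∀ g, P g → g ∈ F) (f : G → ℝ≥0∞) :
    ∑' g : {g : G // P g}, f g = ∑ g ∈ F with P g, f g := by
  have h1 : ∑' g : {g : G // P g}, f g = ∑' g, Set.indicator {g | P g} f g :=
    tsum_subtype {g | P g} f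
  rw [h1, tsum_eq_sum (s := F)]
  · rw [Finset.sum_filter]
    refine Finset.sum_congr rfl fun g _ => ?_
    by_cases hg : P g
    · simp [Set.indicator, hg]
    · simp [Set.indicator, hg]
  · intro g hg
    rw [Set.indicator_of_notMem]
    exact fun hP => hg (h g hP)

theorem tsum_sub_eq' {P : G → Prop} {F : Finset G} (h : ∀ g, g ∈ F ↔ P g) (f : G → ℝ≥0∞) :
    ∑' g : {g : G // P g}, f g = ∑ g ∈ F, f g := by
  rw [tsum_sub_eq (F := F) (fun g hg => (h g).2 hg) f]
  exact Finset.sum_congr (Finset.filter_true_of_mem fun g hg => (h g).1 hg) fun _ _ => rfl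

/-- abstract comparison between shadows and a metric on the boundary. `dg z g` is the distance from
`z` to the group element `g` in the compactification. -/
theorem shadowMod_bounded {S : Finset G} {Z : Type} [MetricSpace Z]
    (hfin : ∀ k, {g : G | wlen S g = k}.Finite)
    (hcov : ∀ (x : Bdry S) (k : ℕ), ∃ g, wlen S g = k ∧ x ∈ shadow S 0 g)
    [CompactSpace Z] (e : Bdry S ≃ₜ Z) (dg : Z → G → ℝ) (θ : ℝ) (hθ : 0 < θ) (hθ1 : θ < 1)
    (hlip : ∀ z z' g, dg z g ≤ dg z' g + dist z z')
    (htri : ∀ z z' g, dist z z' ≤ dg z g + dg z' g)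
    (hsh : ∃ C : ℝ, ∀ g x, x ∈ shadow S 0 g → dg (e x) g ≤ C * θ ^ wlen S g)
    (hcount : ∀ T : ℝ, ∃ n : ℕ, ∀ (k : ℕ) (z : Z) (F : Finset G), (∀ g ∈ F, wlen S g = k) →
      (∀ g ∈ F, dg z g ≤ T * θ ^ k) → F.card ≤ n)
    (N : ℕ → Finset Z) (hN : P198Q.IsNet N) (D : ℝ → ℝ) (Q : ℕ) (hD : P198Q.Doubling Z D Q)
    (hmd : ∀ t : ℝ, 0 < t → ∃ C : ℝ, ∀ k, P198Q.md (N k) (P198Q.hit k) (P198Q.contDiam Z t) ≤ C)
    (r : ℕ) (A B : Set (Bdry S)) (hA : IsClosed A) (hB : IsClosed B) (hAB : Disjoint A B) :
    ⨆ k : ℕ, shadowMod S r k (joining A B) < ⊤ := by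
  -- separation of `A` and `B`
  have hAc : IsCompact (e '' A) := by
    have : IsClosed (e '' A) := (e.isClosed_image).2 hA
    exact this.isCompact
  have hBc : IsCompact (e '' B) := by
    have : IsClosed (e '' B) := (e.isClosed_image).2 hB
    exact this.isCompact
  have hdis : Disjoint (e '' A) (e '' B) := by
    rw [Set.disjoint_image_iff e.injective]
    exact hAB
  obtain ⟨t, ht, hthick⟩ := hdis.exists_thickenings hAc hBc.isClosed
  have hsep : ∀ a ∈ A, ∀ b ∈ B, t ≤ dist (e a) (e b) := by
    intro a ha b hb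
    by_contra hlt
    push_neg at hlt
    have h1 : e b ∈ thickening t (e '' A) := by
      rw [mem_thickening_iff]
      exact ⟨e a, mem_image_of_mem _ ha, by rwa [dist_comm]⟩
    exact Set.disjoint_left.1 hthick h1 (self_subset_thickening ht _ (mem_image_of_mem _ hb))
  obtain ⟨C₀, hC₀⟩ := hmd t ht
  obtain ⟨C, hC⟩ := hsh
  set T : ℝ := |C| + 1 with hT
  have hTpos : 0 < T := by positivity
  obtain ⟨n₂, hn₂⟩ := hcount T
  obtain ⟨n₁, hn₁⟩ : ∃ n₁ : ℕ, D (4 * T) ≤ n₁ := exists_nat_ge _
  -- the bound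
  have hbound : ∀ k : ℕ, shadowMod S r k (joining A B) ≤ ENNReal.ofReal (n₁ * (n₂ * |C₀|)) := by
    intro k
    -- choose the level
    have hk0 : 0 < θ ^ k := pow_pos hθ k
    have hk1 : θ ^ k ≤ 1 := pow_le_one₀ hθ.le hθ1.le
    obtain ⟨j', hj1, hj2⟩ := exists_nat_pow_near_of_lt_one hk0 hk1 (by norm_num : (0 : ℝ) < 1 / 2)
      (by norm_num : (1 / 2 : ℝ) < 1)
    set j := j' + 1 with hj
    have hscj : P198Q.sc j ≤ θ ^ k := hj1.le
    have hscj' : θ ^ k ≤ 2 * P198Q.sc j := by
      have : P198Q.sc j = (1 / 2 : ℝ) ^ j' * (1 / 2) := by rw [P198Q.sc, hj, pow_succ]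
      rw [this]
      linarith
    have hscpos : 0 < P198Q.sc j := by unfold P198Q.sc; positivity
    -- the optimal weight on the net
    have hhit : ∀ K ∈ P198Q.contDiam Z t, ∃ v ∈ N j, P198Q.hit j v K := by
      rintro K hK
      obtain ⟨x, hx⟩ := K.nonempty
      obtain ⟨v, hv, hxv⟩ := hN.cov j x
      exact ⟨v, hv, x, hxv, hx⟩
    obtain ⟨ρ', hρ', hen⟩ := P198Q.exists_adm (N j) (P198Q.hit j) (P198Q.contDiam Z t) hhit
    set R : G → Z → Prop := fun g v => dg v g ≤ T * θ ^ k with hR
    set ρ : G → ℝ := fun g => ∑ v ∈ N j with R g v, ρ' v with hρ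
    have hρ0 : ∀ g, 0 ≤ ρ g := fun g => Finset.sum_nonneg fun v _ => hρ'.1 v
    set F : Finset G := (hfin k).toFinset with hF
    have hFmem : ∀ g, g ∈ F ↔ wlen S g = k := by intro g; simp [hF]
    -- energy bound
    have henergy : ∑ g ∈ F, ρ g ^ 2 ≤ n₁ * (n₂ * |C₀|) := by
      have h1 : ∀ g ∈ F, ρ g ^ 2 ≤ n₁ * ∑ v ∈ N j with R g v, ρ' v ^ 2 := by
        intro g _
        have hcard : (((N j).filter (fun v => R g v)).card : ℝ) ≤ n₁ := by
          rcases ((N j).filter (fun v => R g v)).eq_empty_or_nonempty with he | ⟨v₀, hv₀⟩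
          · rw [he]; simp
          · have := hD (4 * T) j 0 v₀ ((N j).filter (fun v => R g v)) (by positivity) ?_ ?_
            · simp only [Nat.mul_zero, pow_zero, mul_one] at this
              exact this.trans hn₁
            · intro a ha
              rw [Finset.mem_filter] at ha hv₀
              have := htri a v₀ g
              have h3 : dg a g ≤ T * θ ^ k := ha.2
              have h4 : dg v₀ g ≤ T * θ ^ k := hv₀.2
              have h5 : T * θ ^ k ≤ T * (2 * P198Q.sc j) := mul_le_mul_of_nonneg_left hscj' hTpos.le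
              linarith
            · intro a ha b hb hab
              rw [Finset.mem_filter] at ha hb
              simpa using hN.sep j a ha.1 b hb.1 hab
        calc ρ g ^ 2 = (∑ v ∈ N j with R g v, ρ' v) ^ 2 := rfl
          _ ≤ (((N j).filter (fun v => R g v)).card : ℝ) * ∑ v ∈ N j with R g v, ρ' v ^ 2 :=
              sq_sum_le_card_mul_sum_sq
          _ ≤ n₁ * ∑ v ∈ N j with R g v, ρ' v ^ 2 :=
              mul_le_mul_of_nonneg_right hcard (Finset.sum_nonneg fun v _ => sq_nonneg _)
      calc ∑ g ∈ F, ρ g ^ 2 ≤ ∑ g ∈ F, n₁ * ∑ v ∈ N j with R g v, ρ' v ^ 2 := Finset.sum_le_sum h1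
        _ = n₁ * ∑ g ∈ F, ∑ v ∈ N j with R g v, ρ' v ^ 2 := by rw [Finset.mul_sum]
        _ = n₁ * ∑ v ∈ N j, ∑ g ∈ F with R g v, ρ' v ^ 2 := by
            congr 1
            simp only [Finset.sum_filter]
            rw [Finset.sum_comm]
        _ ≤ n₁ * ∑ v ∈ N j, n₂ * ρ' v ^ 2 := by
            refine mul_le_mul_of_nonneg_left (Finset.sum_le_sum fun v _ => ?_) (Nat.cast_nonneg _)
            rw [Finset.sum_const, nsmul_eq_mul]
            refine mul_le_mul_of_nonneg_right ?_ (sq_nonneg _)
            have := hn₂ k v (F.filter fun g => R g v) (fun g hg => ?_) (fun g hg => ?_)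
            · exact_mod_cast this
            · exact (hFmem g).1 (Finset.mem_filter.1 hg).1
            · exact (Finset.mem_filter.1 hg).2
        _ = n₁ * (n₂ * P198Q.energy (N j) ρ') := by simp only [P198Q.energy, ← Finset.mul_sum]
        _ ≤ n₁ * (n₂ * |C₀|) := by
            refine mul_le_mul_of_nonneg_left (mul_le_mul_of_nonneg_left ?_ (Nat.cast_nonneg _))
              (Nat.cast_nonneg _)
            rw [hen]
            exact (hC₀ j).trans (le_abs_self _)
    -- admissibility
    refine (iInf₂_le (fun g => ENNReal.ofReal (ρ g)) ?_).trans ?_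
    · rintro K ⟨hKc, hKconn, ⟨a, haK, haA⟩, ⟨b, hbK, hbB⟩⟩
      set K' : NonemptyCompacts Z := ⟨⟨e '' K, hKc.image e.continuous⟩, hKconn.nonempty.image _⟩
        with hK'
      have hK'c : (K' : Set Z) = e '' K := rfl
      have hK'mem : K' ∈ P198Q.contDiam Z t := by
        refine ⟨?_, ?_⟩
        · rw [hK'c]; exact hKconn.image _ e.continuous.continuousOn
        · rw [hK'c]
          exact (hsep a haA b hbB).trans (dist_le_diam_of_mem (hKc.image e.continuous).isBounded
            (mem_image_of_mem _ haK) (mem_image_of_mem _ hbK))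
      have h1 := hρ'.2 K' hK'mem
      rw [tsum_sub_eq (P := fun g => wlen S g = k ∧ (shadow S r g ∩ K).Nonempty) (F := F)
        (fun g hg => (hFmem g).2 hg.1) (fun g => ENNReal.ofReal (ρ g))]
      have h2 : (1 : ℝ) ≤ ∑ g ∈ F with (wlen S g = k ∧ (shadow S r g ∩ K).Nonempty), ρ g := by
        refine h1.trans ?_
        unfold P198Q.len
        -- every hit net point is charged to some `g`
        have h3 : ∀ v ∈ (N j).filter (fun v => P198Q.hit j v K'),
            ∃ g ∈ F.filter (fun g => wlen S g = k ∧ (shadow S r g ∩ K).Nonempty), R g v := by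
          intro v hv
          rw [Finset.mem_filter] at hv
          obtain ⟨z, hz1, hz2⟩ := hv.2
          rw [hK'c] at hz2
          obtain ⟨x, hxK, rfl⟩ := hz2
          obtain ⟨g, hg, hgx⟩ := hcov x k
          have hgr : x ∈ shadow S r g := by
            obtain ⟨ρρ, h5, m, h6⟩ := hgx
            exact ⟨ρρ, h5, m, h6.trans (Nat.zero_le _)⟩
          refine ⟨g, Finset.mem_filter.2 ⟨(hFmem g).2 hg, hg, x, hgr, hxK⟩, ?_⟩
          have h7 := hC g x hgx
          rw [hg] at h7
          have h8 := hlip v (e x) g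
          have h9 : dist v (e x) ≤ θ ^ k := by
            rw [dist_comm]
            exact (mem_closedBall.1 hz1).trans hscj
          have h10 : C * θ ^ k ≤ |C| * θ ^ k := mul_le_mul_of_nonneg_right (le_abs_self _) hk0.le
          show dg v g ≤ T * θ ^ k
          rw [hT]
          linarith
        calc ∑ v ∈ N j with P198Q.hit j v K', ρ' v
            ≤ ∑ v ∈ (N j).filter (fun v => P198Q.hit j v K'),
              ∑ g ∈ F.filter (fun g => wlen S g = k ∧ (shadow S r g ∩ K).Nonempty),
                if R g v then ρ' v else 0 := by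
              refine Finset.sum_le_sum fun v hv => ?_
              obtain ⟨g, hg, hgv⟩ := h3 v hv
              calc ρ' v = if R g v then ρ' v else 0 := by simp [hgv]
                _ ≤ _ := Finset.single_le_sum (f := fun g => if R g v then ρ' v else 0)
                    (fun i _ => by split_ifs <;> simp [hρ'.1 v]) hg
          _ = ∑ g ∈ F.filter (fun g => wlen S g = k ∧ (shadow S r g ∩ K).Nonempty),
              ∑ v ∈ (N j).filter (fun v => P198Q.hit j v K'), if R g v then ρ' v else 0 :=
              Finset.sum_comm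
          _ ≤ ∑ g ∈ F.filter (fun g => wlen S g = k ∧ (shadow S r g ∩ K).Nonempty), ρ g := by
              refine Finset.sum_le_sum fun g _ => ?_
              calc ∑ v ∈ (N j).filter (fun v => P198Q.hit j v K'), (if R g v then ρ' v else 0)
                  ≤ ∑ v ∈ N j, if R g v then ρ' v else 0 :=
                    Finset.sum_le_sum_of_subset_of_nonneg (Finset.filter_subset _ _)
                      (fun i _ _ => by split_ifs <;> simp [hρ'.1 i])
                _ = ρ g := by
                    show _ = ∑ v ∈ N j with R g v, ρ' v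
                    rw [Finset.sum_filter]
      have h6 : (1 : ℝ≥0∞) ≤ ENNReal.ofReal
          (∑ g ∈ F with (wlen S g = k ∧ (shadow S r g ∩ K).Nonempty), ρ g) := by
        calc (1 : ℝ≥0∞) = ENNReal.ofReal 1 := by simp
          _ ≤ _ := ENNReal.ofReal_le_ofReal h2
      rw [ENNReal.ofReal_sum_of_nonneg fun g _ => hρ0 g] at h6
      refine h6.trans (le_of_eq (Finset.sum_congr ?_ fun _ _ => rfl))
      ext x
      simp only [Finset.mem_filter]
    · have h4 : ∑' g : {g : G // wlen S g = k}, ENNReal.ofReal (ρ g) ^ 2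
          = ENNReal.ofReal (∑ g ∈ F, ρ g ^ 2) := by
        rw [tsum_sub_eq' (P := fun g => wlen S g = k) (F := F) hFmem
          (fun g => ENNReal.ofReal (ρ g) ^ 2)]
        rw [ENNReal.ofReal_sum_of_nonneg (fun g _ => sq_nonneg _)]
        refine Finset.sum_congr rfl fun g _ => ?_
        rw [ENNReal.ofReal_pow (hρ0 g)]
      rw [h4]
      exact ENNReal.ofReal_le_ofReal henergy
  exact (iSup_le hbound).trans_lt ENNReal.ofReal_lt_top

end Vale.Agent.P198.H
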