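import Vale.Agent.P198.H.Defs

/-! # P198: combinatorial 2-modulus of the shadow covers and the Stage 1 statement -/

namespace Vale.Agent.P198.H

open Set Filter Topology
open scoped ENNReal

variable {G : Type} [Group G]

/-- combinatorial 2-modulus of the family `Γ` with respect to the cover of the boundary by the
shadows `shadow S r g`, `|g| = k`: infimum of `∑ ρ(g)²` over all weights `ρ ≥ 0` such that every
`K ∈ Γ` has `ρ`-length `∑ {ρ g : |g| = k, shadow S r g ∩ K ≠ ∅} ≥ 1` -/
noncomputable def shadowMod (S : Finset G) (r k : ℕ) (Γ : Set (Set (Bdry S))) : ℝ≥0∞ :=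
  ⨅ ρ ∈ {ρ : G → ℝ≥0∞ | ∀ K ∈ Γ,
      1 ≤ ∑' g : {g : G // wlen S g = k ∧ (shadow S r g ∩ K).Nonempty}, ρ g},
    ∑' g : {g : G // wlen S g = k}, ρ g ^ 2

/-- the continua that join `A` to `B` -/
def joining {X : Type} [TopologicalSpace X] (A B : Set X) : Set (Set X) :=
  {K | IsCompact K ∧ IsConnected K ∧ (K ∩ A).Nonempty ∧ (K ∩ B).Nonempty}

/-- Stage 1: if the boundary of a hyperbolic group is a 2-sphere then the combinatorial 2-moduli
are bounded uniformly in the scale -/
def Stage1 : Prop :=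
  ∀ (G : Type) [Group G] (S : Finset G), Subgroup.closure (S : Set G) = ⊤ →
    ∀ δ : ℕ, Thin S δ → Nonempty (Bdry S ≃ₜ Metric.sphere (0 : EuclideanSpace ℝ (Fin 3)) 1) →
    ∀ (r : ℕ) (A B : Set (Bdry S)), IsClosed A → IsClosed B → Disjoint A B →
      ⨆ k : ℕ, shadowMod S r k (joining A B) < ⊤

end Vale.Agent.P198.H
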